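import Vale.Agent.P287D.Hd.St
import Vale.Agent.P287D.Pb.Abh
import Vale.Agent.P287D.Gm.Ffs

/-!
# P287D, hidden covers: common lemmas for the field models
-/

set_option linter.unusedSectionVars false

open Set
open scoped IntermediateField
open Vale.Agent.P297Z

noncomputable section

namespace Vale.Agent.P287D.Hd

section two

variable {L K : Type} [Field L] [Algebra ℂ L] [Field K] [Algebra ℂ K] [Algebra L K] {n : ℕ}

theorem ff_up [IsScalarTower ℂ L K] [FiniteDimensional L K] (h : FF L n) : FF K n := by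
  have := h.ess
  have : Algebra.EssFiniteType ℂ K := .comp ℂ L K
  refine Gm.ff_of_ess ?_
  rw [← trdeg_add_eq ℂ L, h.trdeg, trdeg_eq_zero, add_zero]

theorem not_tv [Algebra.IsAlgebraic L K] (P : Pl K) : ¬ Tv L P := fun h =>
  Pl.ring_ne_top P.toPlace (eq_top_iff.2 fun f _ => by
    let : Algebra L P.ring := ((algebraMap L K).codRestrict P.ring h).toAlgebra
    have : IsScalarTower L P.ring K := .of_algebraMap_eq fun _ => rfl
    obtain ⟨y, rfl⟩ := IsIntegrallyClosed.isIntegral_iff.1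
      ((Algebra.IsIntegral.isIntegral (R := L) f).tower_top (A := P.ring))
    exact y.2)

theorem tv_or_ov [IsScalarTower ℂ L K] (h : FF K n) (P : Pl K) : Tv L P ∨ ∃ Q, Ov L P Q :=
  h.ok (IsScalarTower.toAlgHom ℂ L K) P

theorem exists_ov [IsScalarTower ℂ L K] [Algebra.IsAlgebraic L K] (h : FF K n) (P : Pl K) :
    ∃ Q, Ov L P Q := (tv_or_ov h P).resolve_left (not_tv P)

theorem Tv.of_adjoin {P : Pl K} {E : IntermediateField L K} (h : Tv E P) : Tv L P :=
  fun f => h (algebraMap L E f)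

variable {P : Pl K} {f g : K}

theorem rd_of (h : f ∈ P.ring) : P.rd f = IsLocalRing.residue P.ring ⟨f, h⟩ := dif_pos h

theorem rd_mul (h : f ∈ P.ring) (k : g ∈ P.ring) : P.rd (f * g) = P.rd f * P.rd g := by
  rw [rd_of h, rd_of k, rd_of (mul_mem h k)]
  exact map_mul (IsLocalRing.residue P.ring) ⟨f, h⟩ ⟨g, k⟩

theorem rd_add (h : f ∈ P.ring) (k : g ∈ P.ring) : P.rd (f + g) = P.rd f + P.rd g := by
  rw [rd_of h, rd_of k, rd_of (add_mem h k)]
  exact map_add (IsLocalRing.residue P.ring) ⟨f, h⟩ ⟨g, k⟩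

theorem rd_one : P.rd 1 = 1 := by
  rw [rd_of (one_mem _)]
  exact map_one (IsLocalRing.residue P.ring)

theorem rd_eq_zero (h : f ∈ P.ring) : P.rd f = 0 ↔ f = 0 ∨ 0 < P.ord f := by
  rw [rd_of h]
  exact (IsLocalRing.residue_eq_zero_iff _).trans (Pl.mem_maximalIdeal_iff P.toPlace ⟨f, h⟩)

/-- units of the valuation ring -/
def Un (P : Pl K) (f : K) : Prop := f ≠ 0 ∧ P.ord f = 0

namespace Un

theorem mem (h : Un P f) : f ∈ P.ring := (Pl.ord_nonneg_iff _ h.1).1 h.2.ge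

theorem rd_ne (h : Un P f) : P.rd f ≠ 0 := fun e =>
  ((rd_eq_zero h.mem).1 e).elim h.1 h.2.le.not_gt

theorem of_rd (h : f ∈ P.ring) (e : P.rd f ≠ 0) : Un P f :=
  ⟨fun k => e ((rd_eq_zero h).2 (.inl k)), le_antisymm
    (not_lt.1 fun k => e ((rd_eq_zero h).2 (.inr k))) (Pl.ord_nonneg_of_mem _ h)⟩

theorem mul (h : Un P f) (k : Un P g) : Un P (f * g) :=
  ⟨mul_ne_zero h.1 k.1, by rw [Pl.ord_mul _ h.1 k.1, h.2, k.2, add_zero]⟩

theorem inv (h : Un P f) : Un P f⁻¹ := ⟨inv_ne_zero h.1, by rw [Pl.ord_inv, h.2, neg_zero]⟩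

theorem rd_inv (h : Un P f) : P.rd f⁻¹ = (P.rd f)⁻¹ :=
  eq_inv_of_mul_eq_one_left (by rw [← rd_mul h.inv.mem h.mem, inv_mul_cancel₀ h.1, rd_one])

theorem of_mul (h : Un P (f * g)) (k : Un P g) : Un P f := by
  simpa [k.1] using h.mul k.inv

end Un

theorem rd_mem_Rs (P : Pl K) (c : L) : P.rd (algebraMap L K c) ∈ Rs L P := by
  by_cases h : algebraMap L K c ∈ P.ring
  · exact Subfield.subset_closure ⟨c, h, rfl⟩
  · rw [show P.rd (algebraMap L K c) = 0 from dif_neg h]; exact zero_mem _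

theorem Med.un (h : Med L P f) : Un P f := .of_rd h.1 fun e => h.2 (e ▸ isAlgebraic_zero)

/-- proportional units have proportional residues -/
theorem Un.rel (h : Un P f) (k : Un P g) {c : L} (e : f = algebraMap L K c * g) :
    ∃ a ∈ Rs L P, a ≠ 0 ∧ P.rd f = a * P.rd g :=
  have u : Un P (algebraMap L K c) := (e ▸ h).of_mul k
  ⟨_, rd_mem_Rs P c, u.rd_ne, by rw [e, rd_mul u.mem k.mem]⟩

theorem adjoin_mul {c : L} (hc : c ≠ 0) (z : K) : L⟮algebraMap L K c * z⟯ = L⟮z⟯ := by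
  have k : ∀ (c : L) (z : K), L⟮algebraMap L K c * z⟯ ≤ L⟮z⟯ := fun c z =>
    IntermediateField.adjoin_simple_le_iff.2
      (mul_mem (IntermediateField.algebraMap_mem _ c) (IntermediateField.mem_adjoin_simple_self L z))
  refine le_antisymm (k c z) ?_
  have := k c⁻¹ (algebraMap L K c * z)
  rwa [← mul_assoc, ← map_mul, inv_mul_cancel₀ hc, map_one, one_mul] at this

end two

section res

variable {E : Type} [Field E] {k : Subfield E} {u a c : E}

theorem alg_of_pow {m : ℕ} (hm : 0 < m) (h : u ^ m ∈ k) : IsAlgebraic k u :=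
  IsAlgebraic.of_pow hm (isAlgebraic_algebraMap (⟨_, h⟩ : k))

open Polynomial in
/-- a transcendental element is not a square -/
theorem nonsq (hu : Transcendental k u) (hc : c ∈ k) (c0 : c ≠ 0) (e : a ^ 2 * u = c) :
    a ∉ Subfield.closure (insert u (k : Set E)) := fun h => by
  have h1 : a ∈ k⟮u⟯ := (Subfield.closure_le (t := k⟮u⟯.toSubfield)).2 (insert_subset
    (IntermediateField.mem_adjoin_simple_self k u)
    fun x hx => IntermediateField.algebraMap_mem _ (⟨x, hx⟩ : k)) h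
  obtain ⟨p, q, rfl⟩ := (IntermediateField.mem_adjoin_simple_iff _ _).1 h1
  have q0 : aeval u q ≠ 0 := fun k => c0 (by rw [← e, k]; simp)
  have p0 : p ≠ 0 := fun k => c0 (by rw [← e, k]; simp)
  have q1 : q ≠ 0 := fun k => q0 (by rw [k, map_zero])
  have h2 : p ^ 2 * X = C (⟨c, hc⟩ : k) * q ^ 2 := by
    refine transcendental_iff_injective.1 hu ?_
    simp only [map_mul, map_pow, aeval_X, aeval_C]
    change _ = c * _
    rw [← e]
    field_simp
  have h3 := congrArg natDegree h2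
  rw [natDegree_mul (pow_ne_zero 2 p0) X_ne_zero, natDegree_C_mul
    (fun k => c0 (congrArg Subtype.val k)), natDegree_pow, natDegree_pow, natDegree_X] at h3
  omega

end res

namespace Tow

variable {K₀ K : Type} [Field K₀] [Algebra ℂ K₀] [Field K] [Algebra ℂ K] [Algebra K₀ K]
  (T : Tow K₀ K)

theorem ffJ (h : FF K₀ 2) : FF T.J 2 := ff_up h

theorem ffF (h : FF K 4) : FF T.F 4 := ff_up h

theorem below (h : FF K 4) (P : Pl T.F) : ∃ Q, Ov K P Q := exists_ov (T.ffF h) P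

theorem tv₀ {P : Pl T.F} {Q : Pl K} (h : Ov K P Q) (e : Tv T.J P) : Tv K₀ Q := fun f =>
  (h _).2 (by
    rw [← IsScalarTower.algebraMap_apply, IsScalarTower.algebraMap_apply K₀ T.J T.F]
    exact e _)

/-- the automorphisms preserve the constants -/
theorem conj (σ : T.F ≃ₐ[K] T.F) (c : T.J) :
    ∃ c' : T.J, σ (algebraMap T.J T.F c) = algebraMap T.J T.F c' :=
  ⟨_, ((σ.restrictScalars K₀).restrictNormal_commutes T.J c).symm⟩

/-- the good places upstairs -/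
abbrev Gu (G : Set (Pl K)) : Set (Pl T.F) := {P | Tv T.J P ∧ ∃ Q ∈ G, Ov K P Q}

/-- the data which `DSC` provides -/
structure Dat (O G : Set (Pl K)) (X : BD K) (X' : BD T.F) : Prop where
  f0 : FF K₀ 2
  fK : FF K 4
  one : ∀ (P : Pl T.F) Q, Ov K P Q → Tv K₀ Q → ei P Q = 1
  sub : O ⊆ G
  pf : Pf 4 X'
  low : ∀ P, -(1 / 100) ≤ X P
  good : ∀ P ∈ G, X P ≤ 0
  hur : ∀ P Q, Ov K P Q → X' P + 1 = ei P Q * (X Q + 1)

variable {T} {O G : Set (Pl K)} {X : BD K} {X' : BD T.F}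

theorem Dat.val (h : T.Dat O G X X') {P : Pl T.F} {Q : Pl K} (o : Ov K P Q) (e : Tv T.J P) :
    X' P = X Q := by
  have := h.hur P Q o
  rw [h.one P Q o (T.tv₀ o e)] at this
  simpa using this

theorem Dat.inp (h : T.Dat O G X X') {z t : T.F} (u : T.Up O z) (g : T.J⟮z, t⟯ = ⊤) :
    Inp T.J (T.Gu G) X' z t where
  fj := T.ffJ h.f0
  fk := T.ffF h.fK
  gen := g
  pf := h.pf
  low P e := let ⟨_, o⟩ := T.below h.fK P; h.val o e ▸ h.low _
  up P e := let ⟨Q, o⟩ := T.below h.fK P; h.val o e.of_adjoin ▸ h.good _ (h.sub (u P Q o e))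
  good _ := fun ⟨e, _, a, o⟩ => h.val o e ▸ h.good _ a

theorem Dat.mk' (h : T.Dat O G X X') {y : T.F} (w : T.Two O y) : Mk T.J (T.Gu G) X' y :=
  fun _ _ _ _ => by
    obtain ⟨P₁, P₂, Q₁, Q₂, a, b, c, d, e, o₁, o₂, g₁, g₂⟩ := w
    refine ⟨P₁, P₂, a, b, c, d, e, ?_, h.val o₁ b ▸ h.good _ (h.sub g₁)⟩
    rw [h.val o₁ b, h.val o₂ c, abs_le]
    constructor <;> linarith [h.low Q₁, h.low Q₂, h.good _ (h.sub g₁), h.good _ (h.sub g₂)]

end Tow

theorem ABH.dat (ha : ABH) {K₀ K : Type} [Field K₀] [Algebra ℂ K₀] [Field K] [Algebra ℂ K]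
    [Algebra K₀ K] [IsScalarTower ℂ K₀ K] (h0 : FF K₀ 2) (hK : FF K 4) (T : Tow K₀ K)
    {O G : Set (Pl K)} {X : BD K} {X' : BD T.F} (a : O ⊆ G) (b : Pf 4 X')
    (c : ∀ P, -(1 / 100) ≤ X P) (d : ∀ P ∈ G, X P ≤ 0)
    (e : ∀ P Q, Ov K P Q → X' P + 1 = ei P Q * (X Q + 1)) : T.Dat O G X X' :=
  ⟨h0, hK, fun P Q o t => ((ha K₀ K h0 hK T P Q o).1 t).1, a, b, c, d, e⟩

end Vale.Agent.P287D.Hd
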