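import Vale.Agent.P287D.Hd.St
import Vale.Agent.P287D.In.Bas
import Vale.Agent.P287D.Va.Dsc

/-!
# P287D, hidden covers: the test curve
-/

open Set

noncomputable section

namespace Vale.Agent.P287D.Hd

variable {K : Type} [Field K] [Algebra ℂ K] {n : ℕ} {Λ R M Z : BD K} {P : Pl K}

theorem fin_on (hN : NEG) (hK : FF K (n + 1)) (hΛ : Smp Λ) (bΛ : Big Λ) (hZ : IsB n Z) :
    {P | On n Λ P ∧ Z P ≠ 0}.Finite := by
  obtain ⟨s, -, hs⟩ := hΛ.exists_ampOn
  have k := (hN.iso n K hK Λ _ hΛ (smp_mx s) hs).2.2.1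
  exact (hZ s (hs.big_iff.1 bΛ)).subset fun P hP => ⟨(k P).1 hP.1, hP.2⟩

/-- a vertical place is in a member of the base system -/
theorem vert (hL : FLD) (hK : FF K (n + 1)) (hR : Smp R) (h : ¬ Hor (fld R) P) :
    ∃ G, Rep R G ∧ 0 < G P := by
  obtain ⟨Q, hQ⟩ := not_forall.1 (mt (hL.cen n K hK R P P hR).2.1.2 h)
  exact (not_cle hQ).imp fun _ k => ⟨k.1, k.2.1⟩

theorem exists_dom (hR : Smp R) (hM : 0 ≤ M) {T : Set (Pl K)} (hT : T.Finite)
    (h : ∀ P ∈ T, ∃ G, Rep R G ∧ 0 < G P) :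
    ∃ c : ℝ, 0 < c ∧ ∃ G, Rep (c • R) G ∧ ∀ P ∈ T, M P ≤ G P := by
  induction T, hT using Set.Finite.induction_on with
  | empty =>
    obtain ⟨G, a⟩ := hR.eff
    exact ⟨1, one_pos, G, by rwa [one_smul], fun _ h => h.elim⟩
  | @insert Q T _ _ ih =>
    obtain ⟨c, hc, G, a, b⟩ := ih fun P hP => h P (mem_insert_of_mem _ hP)
    obtain ⟨G', a', b'⟩ := h Q (mem_insert _ _)
    have e : 0 ≤ M Q / G' Q := div_nonneg (hM Q) b'.le
    refine ⟨c + M Q / G' Q, by positivity, _, add_smul c _ R ▸ a.add (a'.smul e), ?_⟩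
    rintro P (rfl | hP)
    · have := a.1 P
      simp only [Pi.add_apply, Pi.smul_apply, smul_eq_mul, div_mul_cancel₀ _ b'.ne']
      exact le_add_of_nonneg_left this
    · exact (b P hP).trans (le_add_of_nonneg_right (mul_nonneg e (a'.1 P)))

/-- a semiample effective class without horizontal primes is dominated by the base -/
theorem eff_of_vert (hM' : MOD) (hN : NEG) (hL : FLD) (hK : FF K (n + 1)) (hΛ : Smp Λ)
    (bΛ : Big Λ) (hR : Smp R) (d : Dsc Λ R) (sM : Smp M) (hM : 0 ≤ M)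
    (h : ∀ P, On n Λ P → Hor (fld R) P → M P = 0) : ∃ ε : ℝ, 0 < ε ∧ Eff (R - ε • M) := by
  obtain ⟨c, hc, G, a, b⟩ := exists_dom hR hM
    (fin_on hN hK hΛ bΛ ((hM'.isb n K hK).1 M sM.car))
    fun P hP => vert hL hK hR fun q => hP.2 (h P hP.1 q)
  obtain ⟨ε, e, -, k⟩ := (d.smul c).congr a.2
  have l := hN.neg n K hK Λ (M - G) ε⁻¹ hΛ bΛ (sub_mem sM.car (a.car (hR.smul hc.le).car)) (by
    have w : M - G + ε⁻¹ • Λ = M + ε⁻¹ • (Λ - ε • G) := by
      rw [smul_sub, inv_smul_smul₀ e.ne']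
      abel
    rw [w]
    exact (sM.add (k.smul (inv_nonneg.2 e.le))).nef) fun P hP => by
      by_cases q : M P = 0
      · simpa [q] using a.1 P
      · exact sub_nonpos.2 (b P ⟨hP, q⟩)
  refine ⟨c⁻¹, inv_pos.2 hc, c⁻¹ • (G - M),
    smul_nonneg (inv_nonneg.2 hc.le) (sub_nonneg.2 (sub_nonpos.1 l)), ?_⟩
  have w : c⁻¹ • (G - M) - (R - c⁻¹ • M) = c⁻¹ • (G - c • R) := by
    rw [smul_sub, smul_sub, inv_smul_smul₀ hc.ne']
    abel
  exact w ▸ (Prn K).smul_mem _ a.2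

open Classical in
/-- **TEST** -/
theorem test (hF : FFS) (hM : MOD) (hS : RES) (hI : INT) (hN : NEG) (hL : FLD) : TEST := by
  intro K _ _ hK Λ R hΛ bΛ hR d h3
  let γ : Fin 3 → BD K := fun i => if i.1 < dim R then R else Λ
  have γs : ∀ i, Smp (γ i) := fun i => by
    simp only [γ]
    split_ifs
    exacts [hR, hΛ]
  have γd : ∀ i, Dsc Λ (γ i) := fun i => by
    simp only [γ]
    split_ifs
    exacts [d, Dsc.refl hΛ]
  have isb := (hM.isb 3 K hK).1
  have fin : ∀ Z ∈ Car K, (Function.support fun P => Z P * In.cf P γ).Finite := fun Z hZ =>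
    hI.fin 3 K hK Z γ (isb Z hZ) fun i => (γs i).car
  have nn : ∀ P, 0 ≤ In.cf P γ := fun P => In.I_δ P γ ▸
    hI.nn 3 K hK _ γ (Eff.of_nonneg P.δ_nonneg).psef (In.isB_δ P) fun i => (γs i).nef
  have off : ∀ P, ¬ On 3 Λ P → In.cf P γ = 0 := fun P h => hI.exc 3 K hK Λ P γ hΛ h γd
  let τ₀ : Car K →ₗ[ℝ] ℝ :=
    { toFun := fun Z => I 4 K (Fin.cons Z.1 γ)
      map_add' := fun a b => by
        simp only [In.I_cons, Submodule.coe_add, Pi.add_apply, add_mul]
        exact finsum_add_distrib (fin _ a.2) (fin _ b.2)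
      map_smul' := fun c a => In.cons_smul c a.1 γ }
  obtain ⟨τ, hτ⟩ := τ₀.exists_extend
  have ev : ∀ Z ∈ Car K, τ Z = ∑ᶠ P, Z P * In.cf P γ := fun Z hZ =>
    LinearMap.congr_fun hτ ⟨Z, hZ⟩
  have prn : ∀ D ∈ Prn K, τ D = 0 := fun D hD => (ev D (Prn_le_Car hD)).trans
    (hI.prn 4 K hK (Fin.cons D γ) 0 (fun j hj => by
      obtain ⟨j, rfl⟩ := Fin.exists_succ_eq.2 (fun e : j = 0 => hj (e ▸ rfl))
      exact (γs j).car) hD)
  have rep : ∀ {A G : BD K}, Rep A G → τ G = τ A := fun h => by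
    rw [← sub_eq_zero, ← map_sub, prn _ h.2]
  have cf : ∀ P, On 3 Λ P → (0 < In.cf P γ ↔ dim R ≤ cd R P) := fun P h => by
    have k := hL.nd 3 P.κ (hF.rsd 3 K hK P) (res P R) (res P Λ) (dim R)
      (by simpa using (hS.des 3 K hK R R P (Dsc.refl hR)).smp) (hS.nef 3 K hK P Λ hΛ.nef)
      ((hS.on 3 K hK Λ P hΛ).1 h) h3
    refine Iff.trans (iff_of_eq (congrArg (fun b => 0 < I 3 P.κ b) (funext fun i => ?_))) k
    simp only [γ]
    split_ifs <;> rfl
  have ver : ∀ P, ¬ Hor (fld R) P → In.cf P γ = 0 := fun P h => by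
    obtain ⟨G, a, b⟩ := vert hL hK hR h
    have cG := a.car hR.car
    have k := single_le_finsum P (fin G cG) fun Q => mul_nonneg (a.1 Q) (nn Q)
    have z : ¬ 0 < τ R := fun q => by
      have e : (Fin.cons R γ : Fin 4 → BD K) = fun i => if i.1 < dim R + 1 then R else Λ :=
        funext fun i => Fin.cases (by simp) (fun j => by simp [γ]) i
      rw [ev R hR.car, ← In.I_cons, e] at q
      have := (hL.nd 4 K hK R Λ _ hR hΛ.nef bΛ (by omega)).1 q
      omega
    rw [← ev G cG, rep a] at k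
    exact le_antisymm (nonpos_of_mul_nonpos_right (k.trans (not_lt.1 z)) b) (nn P)
  have hor : ∀ P, On 3 Λ P → Hor (fld R) P → 0 < In.cf P γ := fun P h h' => by
    obtain ⟨G, a⟩ := hΛ.eff
    have p : 0 < τ G := by
      have e : (Fin.cons Λ γ : Fin 4 → BD K) =
          (fun i : Fin 4 => if i.1 < dim R then R else Λ) ∘ (finRotate 4).symm := by
        funext i
        fin_cases i
        · exact (if_neg (not_lt.2 h3)).symm
        all_goals rfl
      rw [rep a, ev Λ hΛ.car, ← In.I_cons, e, hI.perm 4 K hK _ _ fun j => by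
        split_ifs
        exacts [hR.car, hΛ.car]]
      exact (hL.nd 4 K hK R Λ _ hR hΛ.nef bΛ (by omega)).2 le_rfl
    have q : ∃ Q, 0 < In.cf Q γ := by
      by_contra q
      rw [ev G (a.car hΛ.car), finsum_eq_zero_of_forall_eq_zero fun Q => by
        rw [le_antisymm (not_lt.1 fun k => q ⟨Q, k⟩) (nn Q), mul_zero]] at p
      exact p.false
    obtain ⟨Q, hQ⟩ := q
    have o : On 3 Λ Q := by_contra fun k => hQ.ne' (off Q k)
    exact (cf P h).2 (((cf Q o).1 hQ).trans ((hL.cen 3 K hK R Q P hR).2.2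
      ((hL.cen 3 K hK R P P hR).2.1.1 h' Q)).1)
  refine ⟨τ, prn, fun β hβ h => ?_, fun g hg => ?_⟩
  · rw [ev β hβ]
    refine finsum_nonneg fun P => ?_
    by_cases a : On 3 Λ P
    · by_cases b : Hor (fld R) P
      · exact mul_nonneg (h P a b) (nn P)
      · rw [ver P b, mul_zero]
    · rw [off P a, mul_zero]
  · by_contra q
    have m : 0 ≤ mx ({1, g} : Finset K) := mx_nonneg (by simp)
    refine hg (IntermediateField.subset_adjoin _ _ (eff_of_vert hM hN hL hK hΛ bΛ hR d (smp_mx _)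
      m fun P a b => ?_))
    have k := single_le_finsum P (fin _ (mx_mem_Car _)) fun Q => mul_nonneg (m Q) (nn Q)
    rw [← ev _ (mx_mem_Car _)] at k
    exact le_antisymm (nonpos_of_mul_nonpos_left (k.trans (not_lt.1 q)) (hor P a b)) (m P)

end Vale.Agent.P287D.Hd
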