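import Vale.Agent.P287D.Hd.Grs
import Vale.Agent.P287D.Cb.Kap
import Vale.Agent.P287D.On.Cur
import Vale.Agent.P287D.Va.Cone

/-!
# P287D, hidden covers: the places and the forms of the line `J(z)`
-/

set_option linter.unusedSectionVars false

open Set Polynomial
open scoped IntermediateField
open Vale.Agent.P285N.Brep (jac Fr)
open Vale.Agent.P297Z Vale.Agent.P287D.Cb

noncomputable section

namespace Vale.Agent.P287D.Hd

variable {J L : Type} [Field J] [Algebra ℂ J] [Field L] [Algebra ℂ L] [Algebra J L]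
  [IsScalarTower ℂ J L] {P P' : Pl L} {z f : L} {p q : J[X]} {n : ℕ}

theorem Ru.rcp (h : Ru J z) : Ru J z⁻¹ :=
  ⟨fun a => h.1 (IsAlgebraic.inv_iff.1 a), eq_top_iff.2 (h.2.ge.trans
    (IntermediateField.adjoin_simple_le_iff.2 (by
      simpa using inv_mem (IntermediateField.mem_adjoin_simple_self J z⁻¹))))⟩

theorem Ru.ne (h : Ru J z) (hp : p ≠ 0) : aeval z p ≠ 0 := fun e => h.1 ⟨p, hp, e⟩

theorem Ru.ne_zero (h : Ru J z) : z ≠ 0 := by simpa using h.ne X_ne_zero

theorem Ru.frac (h : Ru J z) (f : L) : ∃ a b : J[X], b ≠ 0 ∧ f = aeval z a / aeval z b := by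
  obtain ⟨a, b, e⟩ := (IntermediateField.mem_adjoin_simple_iff J f).1 (h.2.ge trivial)
  by_cases b0 : b = 0
  · exact ⟨0, 1, one_ne_zero, by simp [e, b0]⟩
  · exact ⟨a, b, b0, e⟩

theorem Ru.fin (h : Ru J z) : FiniteDimensional J⟮z⟯ L := by
  rw [h.2]
  exact Module.Finite.of_surjective (Algebra.linearMap _ L) fun x => ⟨⟨x, trivial⟩, rfl⟩

theorem Ru.trdeg (h : Ru J z) : Algebra.trdeg J L = 1 := by
  have := h.fin
  have k : IsTranscendenceBasis J fun _ : Unit => z :=
    (algebraicIndependent_unique_type_iff.2 h.1).isTranscendenceBasis_iff_isAlgebraic.2 (by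
      rw [range_const]
      exact IntermediateField.isAlgebraic_adjoin_iff_top.1 inferInstance)
  simpa using k.cardinalMk_eq_trdeg.symm

theorem Ru.ff (h : Ru J z) (hJ : FF J n) : FF L (n + 1) := by
  have := hJ.ess
  have : Algebra.EssFiniteType J L := IntermediateField.fg_top_iff.1 ⟨{z}, by simpa using h.2⟩
  have := Algebra.EssFiniteType.comp ℂ J L
  refine Gm.ff_of_ess ?_
  rw [← trdeg_add_eq ℂ J (A := L), hJ.trdeg, h.trdeg, Nat.cast_succ]

namespace Ln

/-- the residue map on the base field -/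
def tvh (h : Tv J P) : J →ₐ[ℂ] P.κ :=
  { (IsLocalRing.residue P.ring).comp ((algebraMap J L).codRestrict P.ring h) with
    commutes' := fun c => ((rd_of (h _)).symm.trans
      (congrArg P.rd (IsScalarTower.algebraMap_apply ℂ J L c).symm)).trans (rd_const c) }

theorem tvh_apply (h : Tv J P) (a : J) : tvh h a = P.rd (algebraMap J L a) := (rd_of (h a)).symm

theorem rd_ev (h : Tv J P) (hz : z ∈ P.ring) (q : J[X]) :
    aeval z q ∈ P.ring ∧ P.rd (aeval z q) = eval₂ (tvh h : J →+* P.κ) (P.rd z) q := by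
  induction q using Polynomial.induction_on with
  | C a =>
    rw [aeval_C, eval₂_C]
    exact ⟨h a, (tvh_apply h a).symm⟩
  | add p q hp hq =>
    rw [map_add, eval₂_add]
    exact ⟨add_mem hp.1 hq.1, by rw [rd_add hp.1 hq.1, hp.2, hq.2]⟩
  | monomial n a k =>
    rw [pow_succ, ← mul_assoc, map_mul, aeval_X, eval₂_mul_X]
    exact ⟨mul_mem k.1 hz, by rw [rd_mul k.1 hz, k.2]⟩

/-- `P` is the place of the polynomial `p` -/
structure Fp (z : L) (P : Pl L) (p : J[X]) : Prop where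
  tv : Tv J P
  mem : z ∈ P.ring
  irr : Irreducible p
  mon : p.Monic
  mx : ∀ q : J[X], Mx P (aeval z q) ↔ p ∣ q

theorem exists_fp (h : Ru J z) (t : Tv J P) (hz : z ∈ P.ring) : ∃ p : J[X], Fp z P p := by
  let := (tvh t : J →+* P.κ).toAlgebra
  have k : ∀ q : J[X], Mx P (aeval z q) ↔ aeval (P.rd z) q = 0 := fun q => by
    rw [← rd_eq_zero (rd_ev t hz q).1, (rd_ev t hz q).2]
    rfl
  have a : IsAlgebraic J (P.rd z) := by
    by_contra e
    refine Pl.ring_ne_top P.toPlace (eq_top_iff.2 fun f _ => ?_)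
    obtain ⟨a, b, b0, rfl⟩ := h.frac f
    rw [div_eq_mul_inv]
    exact mul_mem (rd_ev t hz a).1 (inv_mem_of fun m => e ⟨b, b0, (k b).1 m⟩)
  exact ⟨_, t, hz, minpoly.irreducible a.isIntegral, minpoly.monic a.isIntegral,
    fun q => (k q).trans (minpoly.dvd_iff).symm⟩

namespace Fp

variable (a : Fp z P p)
include a

theorem ord_of (hq : ¬ p ∣ q) : P.ord (aeval z q) = 0 := by
  have k := mt (a.mx q).1 hq
  exact Pl.ord_unit _ (rd_ev a.tv a.mem q).1 (inv_mem_of k)

theorem split (h : Ru J z) (hq : q ≠ 0) : ∃ (k : ℕ) (r : J[X]), ¬ p ∣ r ∧ q = p ^ k * r ∧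
    P.ord (aeval z q) = k * P.ord (aeval z p) := by
  obtain ⟨k, r, h1, rfl⟩ := WfDvdMonoid.max_power_factor hq a.irr
  refine ⟨k, r, h1, rfl, ?_⟩
  rw [map_mul, map_pow, Pl.ord_mul _ (pow_ne_zero _ (h.ne a.irr.ne_zero))
    (h.ne (right_ne_zero_of_mul hq)), a.ord_of h1, Pl.ord_pow, add_zero]

theorem ord (h : Ru J z) : P.ord (aeval z p) = 1 := by
  have k := (mx_iff.1 ((a.mx p).2 dvd_rfl)).resolve_left (h.ne a.irr.ne_zero)
  obtain ⟨u, v, v0, e⟩ := h.frac P.t
  have u0 : u ≠ 0 := fun e' => P.t_ne (by simp [e, e'])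
  obtain ⟨i, -, -, -, h1⟩ := a.split h u0
  obtain ⟨j, -, -, -, h2⟩ := a.split h v0
  have := P.ord_t
  rw [e, Pl.ord_div _ (h.ne u0) (h.ne v0), h1, h2, ← sub_mul] at this
  exact Int.eq_one_of_mul_eq_one_left k.le this

theorem frac (h : Ru J z) (hf : f ∈ P.ring) :
    ∃ u v : J[X], ¬ p ∣ v ∧ f = aeval z u / aeval z v := by
  obtain ⟨u, v, v0, rfl⟩ := h.frac f
  by_cases u0 : u = 0
  · exact ⟨0, 1, fun e => a.irr.not_isUnit (isUnit_of_dvd_one e), by simp [u0]⟩
  obtain ⟨i, r, -, e1, h1⟩ := a.split h u0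
  obtain ⟨j, s, k, e2, h2⟩ := a.split h v0
  have := Pl.ord_nonneg_of_mem _ hf
  rw [Pl.ord_div _ (h.ne u0) (h.ne v0), h1, h2, a.ord h] at this
  obtain ⟨l, rfl⟩ := Nat.exists_eq_add_of_le (show j ≤ i by omega)
  refine ⟨p ^ l * r, s, k, ?_⟩
  rw [e1, e2, pow_add, mul_assoc, map_mul, map_mul _ (p ^ j),
    mul_div_mul_left _ _ (h.ne (pow_ne_zero _ a.irr.ne_zero))]

theorem uniq (h : Ru J z) (b : Fp z P' p) : P = P' := by
  refine Pl.ext' (congrArg _ (Pl.eq_of_le' fun f hf => ?_))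
  obtain ⟨u, v, k, rfl⟩ := a.frac h hf
  rw [div_eq_mul_inv]
  exact mul_mem (rd_ev b.tv b.mem u).1 (inv_mem_of (mt (b.mx v).1 k))

theorem eq_of (hq : Irreducible q) (m : q.Monic) (k : Mx P (aeval z q)) : p = q :=
  eq_of_monic_of_associated a.mon m (a.irr.associated_of_dvd hq ((a.mx q).1 k))

end Fp

theorem exists_pl (h : Ru J z) (hp : Irreducible p) (m : p.Monic) : ∃ P : Pl L, Fp z P p := by
  have : CharZero J := charZero_of_injective_algebraMap (algebraMap ℂ J).injective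
  have := h.fin
  obtain ⟨R, r1, r2⟩ := Ideal.image_subset_nonunits_valuationSubring
    (A := (aeval z : J[X] →ₐ[J] L).toRingHom.range) (Ideal.span {⟨aeval z p, p, rfl⟩}) (by
      rw [Ne, Ideal.span_singleton_eq_top, isUnit_iff_exists_inv]
      rintro ⟨⟨_, q, rfl⟩, e⟩
      have e' : aeval z (p * q - 1) = 0 := by
        rw [map_sub, map_mul, map_one, sub_eq_zero]
        exact congrArg Subtype.val e
      exact hp.not_isUnit (IsUnit.of_mul_eq_one q (sub_eq_zero.1 (by_contra fun k => h.ne k e'))))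
  have r3 : aeval z p ∈ R.nonunits := r2 ⟨_, Ideal.mem_span_singleton_self _, rfl⟩
  have r4 : (aeval z p)⁻¹ ∉ R :=
    (R.mem_nonunits_iff_or.1 r3).resolve_left (h.ne hp.ne_zero)
  have hR : R ≠ ⊤ := fun e => r4 (e ▸ trivial)
  have hk : ∀ a, algebraMap J L a ∈ R := fun a => r1 ⟨C a, aeval_C z a⟩
  have hd := On.cur_dvr h.1 R hR hk
  have hc : ∀ c, algebraMap ℂ L c ∈ R := fun c => IsScalarTower.algebraMap_apply ℂ J L c ▸ hk _
  have dv : @Algebra.trdeg ℂ (IsLocalRing.ResidueField R) _ _ (cst ⟨R, hd⟩ hc).toAlgebra + 1 =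
      Algebra.trdeg ℂ L := by
    let := (cst ⟨R, hd⟩ hc).toAlgebra
    refine le_antisymm (Pb.res_lt hR hc fun _ => rfl) ?_
    rw [← trdeg_add_eq ℂ J (A := L), h.trdeg]
    let ρ : J →ₐ[ℂ] IsLocalRing.ResidueField R :=
      { (IsLocalRing.residue R).comp ((algebraMap J L).codRestrict R hk) with
        commutes' := fun c => congrArg (IsLocalRing.residue R)
          (Subtype.ext (IsScalarTower.algebraMap_apply ℂ J L c).symm) }
    exact add_le_add_left (trdeg_le_of_injective ρ ρ.toRingHom.injective) _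
  let P : Pl L := ⟨⟨R, hd⟩, hc, dv⟩
  obtain ⟨q, hq⟩ := exists_fp (P := P) h hk (r1 ⟨X, aeval_X z⟩)
  exact ⟨P, hq.eq_of hp m (by_contra fun e => r4 (inv_mem_of e)) ▸ hq⟩

theorem fp_X (h : Ru J z) (t : Tv J P) (k : 0 < P.ord z) : Fp z P (X : J[X]) := by
  obtain ⟨p, hp⟩ := exists_fp h t (mem_ord k.le)
  exact hp.eq_of irreducible_X monic_X (by rw [aeval_X]; exact mx_iff.2 (.inr k)) ▸ hp

theorem fp_inf (h : Ru J z) (t : Tv J P) (k : z ∉ P.ring) : Fp z⁻¹ P (X : J[X]) :=
  fp_X h.rcp t (Pl.ord_pos_of_inv_notMem _ (by rwa [inv_inv]))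

theorem ord_inf (h : Ru J z) (a : Fp z⁻¹ P (X : J[X])) (hq : q ≠ 0) :
    P.ord (aeval z q) = -q.natDegree := by
  let := invertibleOfNonzero h.ne_zero
  have e := eval₂_reverse_mul_pow (algebraMap J L) z q
  have o := a.ord h.rcp
  rw [aeval_X, Pl.ord_inv] at o
  rw [invOf_eq_inv, ← aeval_def, ← aeval_def] at e
  rw [← e, Pl.ord_mul _ (h.rcp.ne (reverse_eq_zero.not.2 hq)) (pow_ne_zero _ h.ne_zero),
    a.ord_of (by rw [X_dvd_iff, coeff_zero_reverse]; exact leadingCoeff_ne_zero.2 hq), Pl.ord_pow,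
    show P.ord z = -1 by omega]
  ring

/-! ### forms -/

/-- the coordinates `s, y` -/
abbrev cw (y : Fin n → J) (s : L) : Fin (n + 1) → L := Fin.cons s fun j => algebraMap J L (y j)

/-- the reindexing -/
def eq1 (n : ℕ) : Fin n ⊕ Unit ≃ Fin (n + 1) where
  toFun := Sum.elim Fin.succ fun _ => 0
  invFun := Fin.cons (.inr ()) .inl
  left_inv := by rintro (i | i) <;> rfl
  right_inv i := Fin.cases rfl (fun _ => rfl) i

variable {y : Fin n → J}

theorem cw_ind (h : Ru J z) (hy : AlgebraicIndependent ℂ y) : AlgebraicIndependent ℂ (cw y z) :=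
  (algebraicIndependent_equiv' ((Equiv.sumComm _ _).trans (eq1 n))
    (by funext i; rcases i with i | i <;> rfl)).1
    (hy.sumElim_comp (algebraicIndependent_unique_type_iff (x := fun _ : Unit => z).2 h.1))

/-- **K4** for one further function -/
theorem k4 (hJ : FF J n) (hL : FF L (n + 1)) {Q : Pl J} (l : Ov J P Q) {s : L}
    (hs : AlgebraicIndependent ℂ (cw y s)) :
    ei P Q * (kap y Q + 1) + P.ord s ≤ kap (cw y s) P + 1 := by
  obtain ⟨Λ, h⟩ := exists_lf hL P
  have e : dt (algebraMap J L) (fun i => Λ (eq1 n i)) y (fun _ => s) = jac Λ (cw y s) := by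
    rw [jac, ← Matrix.det_submatrix_equiv_self (eq1 n), dt]
    congr 1
    ext i j
    rcases j with j | j <;> rfl
  have := log_le hJ l (fun i => dr_of (Λ (eq1 n i)))
    (fun i c => by rw [← IsScalarTower.algebraMap_apply]; exact (Λ _).map_algebraMap c)
    (fun i => h.lg _) (e ▸ h.ne _ hs)
  rw [e, ← h.eq _ hs] at this
  simpa [ei] using this

/-- the derivation in the direction of the line -/
theorem exists_der (hJ : FF J n) (h : Ru J z) (hy : AlgebraicIndependent ℂ y) :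
    ∃ d : Derivation ℂ L L, (∀ a, d (algebraMap J L a) = 0) ∧ d z = 1 ∧
      (∀ p : J[X], d (aeval z p) = aeval z (derivative p)) ∧ ∀ s, d s ≠ 0 →
        AlgebraicIndependent ℂ (cw y s) ∧ kap (cw y s) = kap (cw y z) + dv (d s) := by
  obtain ⟨D, hD⟩ := fr_of (h.ff hJ) (cw_ind h hy)
  obtain ⟨E, hE⟩ := fr_of hJ hy
  have a0 : ∀ j, D 0 (algebraMap J L (y j)) = 0 := fun j =>
    (hD.dual 0 j.succ).trans (if_neg (Fin.succ_ne_zero j).symm)
  have a1 : ∀ a, D 0 (algebraMap J L a) = 0 := fun a => by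
    rw [expand ((dr_of (D 0)).comp (algebraMap J L)) (fun c => by
      rw [← IsScalarTower.algebraMap_apply]; exact (D 0).map_algebraMap c) hE a]
    simp [a0]
  have a2 : D 0 z = 1 := (hD.dual 0 0).trans (if_pos rfl)
  have a3 : ∀ s, jac D (cw y s) = D 0 s := fun s => by
    rw [jac, Matrix.det_succ_row_zero, Fin.sum_univ_succ, Finset.sum_eq_zero fun j _ => by
      simp [a0]]
    have : (Matrix.of fun i j => D i (cw y s j)).submatrix Fin.succ Fin.succ = 1 := by
      ext i j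
      simpa [Matrix.one_apply] using hD.dual i.succ j.succ
    simp [this]
  refine ⟨D 0, a1, a2, fun p => ?_, fun s hs => ?_⟩
  · induction p using Polynomial.induction_on' with
    | add p q hp hq => simp only [map_add, hp, hq]
    | monomial k a =>
      rw [derivative_monomial, aeval_monomial, aeval_monomial, Derivation.leibniz,
        Derivation.leibniz_pow, a1, a2]
      simp
      ring
  · rw [← a3] at hs ⊢
    exact ⟨(jac_ne_iff hD _).1 hs, kap_chg hD hs⟩

theorem kap_zero (hL : FF L (n + 1)) (hy : AlgebraicIndependent ℂ y) (t : Tv J P) {s : L}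
    (hs : P.ord s = 1) : kap (cw y s) P = 0 := by
  obtain ⟨D, hD⟩ := Ada.ad (P := P) (π := s) (u := fun j => algebraMap J L (y j))
    ⟨hs, fun _ => t _, by
      simp only [← tvh_apply t]
      exact hy.map' (tvh t).injective⟩ hL
  rw [kap_eq hD, jac_self hD.fr]
  simp

theorem kap_fin (hJ : FF J n) (h : Ru J z) (hy : AlgebraicIndependent ℂ y) (t : Tv J P)
    (hz : z ∈ P.ring) : kap (cw y z) P = 0 := by
  have : CharZero J := charZero_of_injective_algebraMap (algebraMap ℂ J).injective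
  obtain ⟨d, -, -, d1, d2⟩ := exists_der hJ h hy
  obtain ⟨p, hp⟩ := exists_fp h t hz
  have k : ¬ p ∣ derivative p := fun e =>
    hp.irr.not_isUnit (hp.irr.separable.isUnit_of_dvd' dvd_rfl e)
  have := congrFun (d2 (aeval z p) (d1 p ▸ h.ne fun e => k (e ▸ dvd_zero p))).2 P
  rw [kap_zero (h.ff hJ) hy t (hp.ord h), Pi.add_apply, dv_apply, d1, hp.ord_of k] at this
  simpa using this.symm

theorem kap_inf (hJ : FF J n) (h : Ru J z) (hy : AlgebraicIndependent ℂ y) (t : Tv J P)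
    (hz : z ∉ P.ring) : kap (cw y z) P = -2 := by
  obtain ⟨d, -, d0, -, d2⟩ := exists_der hJ h hy
  have o := (fp_inf h t hz).ord h.rcp
  rw [aeval_X] at o
  have e : d z⁻¹ = -z⁻¹ ^ 2 := by rw [Derivation.leibniz_inv, d0]; simp
  have := congrFun (d2 z⁻¹ (e ▸ neg_ne_zero.2 (pow_ne_zero _ h.rcp.ne_zero))).2 P
  rw [kap_zero (h.ff hJ) hy t o, Pi.add_apply, dv_apply, e, Pl.ord_neg, Pl.ord_pow, o] at this
  push_cast at this
  linarith

end Ln

end Vale.Agent.P287D.Hd
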