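import Vale.Agent.P287D.Hd.St
import Vale.Agent.P287D.Cb.Lg

/-!
# P287D, hidden covers: residues of polynomials, Gauss places
-/

set_option linter.unusedSectionVars false

open Set Polynomial
open scoped IntermediateField
open Vale.Agent.P297Z Vale.Agent.P287D.Cb

noncomputable section

namespace Vale.Agent.P287D.Hd

variable {J K : Type} [Field J] [Field K] [Algebra ℂ K] [Algebra J K] {P : Pl K} {z : K}

theorem rd_one' (P : Pl K) : P.rd 1 = 1 := by simpa using rd_const (P := P) 1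

theorem rd_zero' (P : Pl K) : P.rd 0 = 0 := by simpa using rd_const (P := P) 0

theorem rd_inv' {x : K} (h : x ∈ P.ring) (k : P.rd x ≠ 0) :
    x⁻¹ ∈ P.ring ∧ P.rd x⁻¹ = (P.rd x)⁻¹ := by
  have a := inv_mem_of fun e => k ((rd_eq_zero h).2 e)
  refine ⟨a, eq_inv_of_mul_eq_one_right ?_⟩
  rw [← rd_mul h a, mul_inv_cancel₀ fun e => k (by rw [e, rd_zero']), rd_one']

variable (J) in
/-- the restriction of the valuation ring -/
abbrev Wr (P : Pl K) : ValuationSubring J := P.ring.comap (algebraMap J K)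

variable (J) in
/-- the residue map on the restriction -/
def rW (P : Pl K) : Wr J P →+* Rs J P where
  toFun a := ⟨P.rd (algebraMap J K a), Subfield.subset_closure ⟨a, a.2, rfl⟩⟩
  map_one' := Subtype.ext (by simpa using rd_one' P)
  map_zero' := Subtype.ext (by simpa using rd_zero' P)
  map_mul' a b := Subtype.ext (by simpa using rd_mul a.2 b.2)
  map_add' a b := Subtype.ext (by simpa using rd_add a.2 b.2)

theorem rW_surj (P : Pl K) : Function.Surjective (rW J P) := by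
  rintro ⟨a, ha⟩
  induction ha using Subfield.closure_induction with
  | mem a ha => obtain ⟨x, h, rfl⟩ := ha; exact ⟨⟨x, h⟩, rfl⟩
  | one => exact ⟨1, map_one _⟩
  | add a b _ _ h1 h2 =>
    obtain ⟨x, hx⟩ := h1
    obtain ⟨y, hy⟩ := h2
    exact ⟨x + y, by rw [map_add, hx, hy]; rfl⟩
  | neg a _ h => obtain ⟨x, hx⟩ := h; exact ⟨-x, by rw [map_neg, hx]; rfl⟩
  | inv a _ h =>
    obtain ⟨x, hx⟩ := h
    obtain rfl : P.rd (algebraMap J K x) = a := congrArg Subtype.val hx
    by_cases e : P.rd (algebraMap J K x) = 0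
    · refine ⟨0, Subtype.ext ?_⟩
      change P.rd (algebraMap J K 0) = (P.rd (algebraMap J K x))⁻¹
      rw [map_zero, e, inv_zero, rd_zero']
    · obtain ⟨k1, k2⟩ := rd_inv' x.2 e
      rw [← map_inv₀] at k1 k2
      exact ⟨⟨_, k1⟩, Subtype.ext k2⟩
  | mul a b _ _ h1 h2 =>
    obtain ⟨x, hx⟩ := h1
    obtain ⟨y, hy⟩ := h2
    exact ⟨x * y, by rw [map_mul, hx, hy]; rfl⟩

theorem mem_Rs {a : P.κ} :
    a ∈ Rs J P ↔ ∃ x : J, algebraMap J K x ∈ P.ring ∧ a = P.rd (algebraMap J K x) :=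
  ⟨fun h => let ⟨x, hx⟩ := rW_surj P ⟨a, h⟩; ⟨x, x.2, (congrArg Subtype.val hx).symm⟩,
    fun h => Subfield.subset_closure h⟩

theorem rd_poly (hz : z ∈ P.ring) (p : (Wr J P)[X]) :
    aeval z (p.map (Wr J P).subtype) ∈ P.ring ∧
      P.rd (aeval z (p.map (Wr J P).subtype)) = aeval (P.rd z) (p.map (rW J P)) := by
  induction p using Polynomial.induction_on with
  | C a =>
    rw [map_C, map_C, aeval_C, aeval_C]
    exact ⟨a.2, rfl⟩
  | add p q hp hq =>
    rw [Polynomial.map_add, Polynomial.map_add, map_add, map_add]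
    exact ⟨add_mem hp.1 hq.1, by rw [rd_add hp.1 hq.1, hp.2, hq.2]⟩
  | monomial n a k =>
    rw [pow_succ, ← mul_assoc, Polynomial.map_mul, Polynomial.map_mul _ (p := _ * _), map_mul,
      map_mul, map_X, map_X, aeval_X, aeval_X]
    exact ⟨mul_mem k.1 hz, by rw [rd_mul k.1 hz, k.2]⟩

/-- primitive polynomials -/
theorem exists_prim (P : Pl K) {p : J[X]} (h : p ≠ 0) : ∃ (c : J) (q : (Wr J P)[X]), c ≠ 0 ∧
    p = C c * q.map (Wr J P).subtype ∧ q.map (rW J P) ≠ 0 := by
  obtain ⟨i, hi, hm⟩ := p.support.exists_max_image (fun i => (Wr J P).valuation (p.coeff i))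
    (support_nonempty.2 h)
  have c0 := mem_support_iff.1 hi
  obtain ⟨q, hq⟩ := (mem_lifts (f := (Wr J P).subtype) (C (p.coeff i)⁻¹ * p)).1
    ((lifts_iff_coeff_lifts _).2 fun k => by
      refine ⟨⟨(C (p.coeff i)⁻¹ * p).coeff k, ((Wr J P).valuation_le_one_iff _).1 ?_⟩, rfl⟩
      rw [coeff_C_mul, map_mul, map_inv₀]
      by_cases e : k ∈ p.support
      · exact inv_mul_le_one_of_le₀ (hm k e) zero_le
      · simp [notMem_support_iff.1 e])
  refine ⟨_, q, c0, by rw [hq, ← mul_assoc, ← C_mul, mul_inv_cancel₀ c0, C_1, one_mul],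
    fun e => ?_⟩
  have a := congrArg (fun r => r.coeff i) hq
  have b := congrArg (fun r => r.coeff i) e
  simp only [coeff_map, coeff_C_mul, inv_mul_cancel₀ c0, coeff_zero] at a b
  rw [show q.coeff i = 1 from Subtype.ext a, map_one] at b
  exact one_ne_zero b

theorem aeval_mem_cl (a : P.κ) (q : (Rs J P)[X]) :
    aeval a q ∈ Subfield.closure (insert a (Rs J P : Set P.κ)) := by
  induction q using Polynomial.induction_on with
  | C c => rw [aeval_C]; exact Subfield.subset_closure (.inr c.2)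
  | add p q hp hq => rw [map_add]; exact add_mem hp hq
  | monomial n c k =>
    rw [pow_succ, ← mul_assoc, map_mul, aeval_X]
    exact mul_mem k (Subfield.subset_closure (.inl rfl))

/-- **the lemma of Gauss** -/
theorem Med.gauss (h : Med J P z) {p : J[X]} (h0 : p ≠ 0) : ∃ (c : J) (u : K), c ≠ 0 ∧
    aeval z p = algebraMap J K c * u ∧ u ∈ P.ring ∧ P.rd u ≠ 0 ∧
    P.rd u ∈ Subfield.closure (insert (P.rd z) (Rs J P : Set P.κ)) := by
  obtain ⟨c, q, c0, rfl, q0⟩ := exists_prim P h0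
  obtain ⟨a, b⟩ := rd_poly h.1 q
  exact ⟨c, _, c0, by rw [map_mul, aeval_C], a, b ▸ fun e => h.2 ⟨_, q0, e⟩, b ▸ aeval_mem_cl _ _⟩

/-- **GRS** -/
theorem grs : GRS := by
  intro J K _ _ _ _ _ _ P z h
  refine le_antisymm (Subfield.closure_le.2 ?_) (Subfield.closure_le.2 ?_)
  · rintro _ ⟨⟨x, hx⟩, h1, rfl⟩
    obtain ⟨p, q, rfl⟩ := (IntermediateField.mem_adjoin_simple_iff J x).1 hx
    change aeval z p / aeval z q ∈ P.ring at h1
    change P.rd (aeval z p / aeval z q) ∈ _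
    by_cases p0 : p = 0
    · rw [p0, map_zero, zero_div, rd_zero']; exact zero_mem _
    by_cases q0 : q = 0
    · rw [q0, map_zero, div_zero, rd_zero']; exact zero_mem _
    obtain ⟨c, u, -, e1, a1, a2, a3⟩ := h.gauss p0
    obtain ⟨d, v, -, e2, b1, b2, b3⟩ := h.gauss q0
    obtain ⟨c1, -⟩ := rd_inv' a1 a2
    obtain ⟨c2, c3⟩ := rd_inv' b1 b2
    have u0 : u ≠ 0 := fun e => a2 (by rw [e, rd_zero'])
    have v0 : v ≠ 0 := fun e => b2 (by rw [e, rd_zero'])
    rw [e1, e2, mul_div_mul_comm, ← map_div₀, div_eq_mul_inv u] at h1 ⊢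
    have k : algebraMap J K (c / d) ∈ P.ring := by
      have := mul_mem h1 (mul_mem b1 c1)
      rwa [mul_assoc, mul_assoc, inv_mul_cancel_left₀ v0, mul_inv_cancel₀ u0, mul_one] at this
    rw [rd_mul k (mul_mem a1 c2), rd_mul a1 c2, c3]
    exact mul_mem (Subfield.subset_closure (.inr (mem_Rs.2 ⟨_, k, rfl⟩))) (mul_mem a3 (inv_mem b3))
  · rintro a (rfl | ha)
    · exact mem_Rs.2 ⟨⟨z, IntermediateField.mem_adjoin_simple_self J z⟩, h.1, rfl⟩
    · obtain ⟨x, h1, rfl⟩ := mem_Rs.1 ha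
      exact mem_Rs.2 ⟨algebraMap J _ x, h1, rfl⟩

/-- a unit or zero with an algebraic residue is a simple root modulo the place -/
theorem exists_sep [Algebra ℂ J] [IsScalarTower ℂ J K] (hz : z ∈ P.ring) (h : ¬ Med J P z) :
    ∃ p : J[X], Mx P (aeval z p) ∧ aeval z (derivative p) ∈ P.ring ∧
      ¬ Mx P (aeval z (derivative p)) := by
  have ha : IsAlgebraic (Rs J P) (P.rd z) := by_contra fun e => h ⟨hz, e⟩
  have : CharZero P.κ := charZero_of_injective_algebraMap (algebraMap ℂ P.κ).injective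
  obtain ⟨q, hq⟩ := Polynomial.map_surjective _ (rW_surj (J := J) P) (minpoly (Rs J P) (P.rd z))
  obtain ⟨a1, a2⟩ := rd_poly hz q
  obtain ⟨b1, b2⟩ := rd_poly hz (derivative q)
  rw [← derivative_map] at b1 b2
  refine ⟨_, (rd_eq_zero a1).1 (by rw [a2, hq, minpoly.aeval]), b1, fun e => ?_⟩
  rw [← rd_eq_zero b1, b2, ← derivative_map, hq] at e
  exact (minpoly.irreducible ha.isIntegral).separable.aeval_derivative_ne_zero
    (minpoly.aeval _ _) e

end Vale.Agent.P287D.Hd
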