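import Vale.Agent.P287D.Sk
import Vale.Agent.P287D.Pb.Bas

/-!
# P287D, hidden covers (HD2, HD3, CHG): statements
-/

set_option linter.unusedVariables false

open Set Equiv
open scoped IntermediateField

noncomputable section

namespace Vale.Agent.P287D.Hd

section defs

variable {L K : Type} [Field L] [Algebra ℂ L] [Field K] [Algebra ℂ K] [Algebra L K]

variable (L) in
/-- `P` lies over `Q` -/
abbrev Ov (P : Pl K) (Q : Pl L) : Prop := Lies (algebraMap L K) P Q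

/-- the ramification index -/
def ei (P : Pl K) (Q : Pl L) : ℤ := P.ord (algebraMap L K Q.t)

variable (L) in
/-- `P` is trivial on `L` -/
abbrev Tv (P : Pl K) : Prop := Trv (algebraMap L K) P

variable (L) in
/-- the residues of the elements of `L` -/
def Rs (P : Pl K) : Subfield P.κ :=
  Subfield.closure {a | ∃ x : L, algebraMap L K x ∈ P.ring ∧ a = P.rd (algebraMap L K x)}

variable (L) in
/-- the residue of `z` is transcendental over the residues of `L` -/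
def Med (P : Pl K) (z : K) : Prop := z ∈ P.ring ∧ Transcendental (Rs L P) (P.rd z)

variable (L) in
/-- the residues of `L` are not algebraically closed in the residue field -/
def Irr (P : Pl K) : Prop := ∃ a : P.κ, IsAlgebraic (Rs L P) a ∧ a ∉ Rs L P

variable (L) in
/-- index one over `L` -/
def E1 (P : Pl K) : Prop := ∃ x : L, P.ord (algebraMap L K x) = 1

variable (L) in
/-- `K = L(t)` -/
def Ru (t : K) : Prop := Transcendental L t ∧ L⟮t⟯ = ⊤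

/-- `X` is the divisor of a rational pluricanonical form -/
def Pf (n : ℕ) (X : BD K) : Prop :=
  ∃ (m : ℕ) (h : K), 0 < m ∧ h ≠ 0 ∧ (m : ℝ) • (X - cn K n) = dv h

/-- `g` is the base divisor of a fibre form which is logarithmic at all vertical places -/
structure Fb (n : ℕ) (X : BD K) (g : BD L) : Prop where
  prn : g + cn L n ∈ Prn L
  low : ∀ P Q, Ov L P Q → (ei P Q : ℝ) - 1 - X P ≤ ei P Q * g Q

/-- the inertia group -/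
def Ine (P : Pl K) (σ : K ≃ₐ[L] K) : Prop := ∀ f ∈ P.ring, σ f ∈ P.ring ∧ P.rd (σ f) = P.rd f

open Classical in
variable (L K) in
/-- the ramified places -/
def Br : BD L := fun Q => if ∃ P : Pl K, Ov L P Q ∧ 1 < ei P Q then 1 else 0

end defs

/-- a statement for all extensions -/
def For2 (P : ∀ (L K : Type) [Field L] [Algebra ℂ L] [Field K] [Algebra ℂ K] [Algebra L K]
    [IsScalarTower ℂ L K], Prop) : Prop :=
  ∀ (L K : Type) [Field L] [Algebra ℂ L] [Field K] [Algebra ℂ K] [Algebra L K]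
    [IsScalarTower ℂ L K], P L K

/-- a statement for all towers -/
def For3 (P : ∀ (J L K : Type) [Field J] [Algebra ℂ J] [Field L] [Algebra ℂ L] [Field K]
    [Algebra ℂ K] [Algebra J L] [Algebra L K] [Algebra J K] [IsScalarTower ℂ J L]
    [IsScalarTower ℂ L K] [IsScalarTower ℂ J K] [IsScalarTower J L K], Prop) : Prop :=
  ∀ (J L K : Type) [Field J] [Algebra ℂ J] [Field L] [Algebra ℂ L] [Field K]
    [Algebra ℂ K] [Algebra J L] [Algebra L K] [Algebra J K] [IsScalarTower ℂ J L]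
    [IsScalarTower ℂ L K] [IsScalarTower ℂ J K] [IsScalarTower J L K], P J L K

/-! ### Galois theory of places -/

/-- **GAL**: transitivity, the order of the inertia group, the decomposition group, averages -/
structure GAL : Prop where
  act : For2 fun L K _ _ _ _ _ _ => ∀ (σ : K ≃ₐ[L] K) (P : Pl K), ∃ P' : Pl K,
    (∀ f, σ f ∈ P'.ring ↔ f ∈ P.ring) ∧ (∀ f, P'.ord (σ f) = P.ord f) ∧
      ∀ Q, Ov L P Q → Ov L P' Q
  trs : For2 fun L K _ _ _ _ _ _ => FiniteDimensional L K → IsGalois L K → ∀ (P P' : Pl K) Q,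
    Ov L P Q → Ov L P' Q → ∃ σ : K ≃ₐ[L] K, ∀ f, P'.ord (σ f) = P.ord f
  inr : For2 fun L K _ _ _ _ _ _ => FiniteDimensional L K → IsGalois L K → ∀ (P : Pl K) (Q : Pl L),
    Ov L P Q → (Nat.card {σ : K ≃ₐ[L] K // Ine P σ} : ℤ) = ei P Q
  dec : For2 fun L K _ _ _ _ _ _ => FiniteDimensional L K → IsGalois L K → ∀ (P : Pl K) (Q : Pl L),
    Ov L P Q → ∀ a ∈ P.ring, P.rd a ∉ Rs L P → ∃ σ : K ≃ₐ[L] K,
      (∀ f, P.ord (σ f) = P.ord f) ∧ P.rd (σ a) ≠ P.rd a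
  av : For2 fun L K _ _ _ _ _ _ => ∀ n, FF L n → FiniteDimensional L K → IsGalois L K →
    ∀ D ∈ Prn K, ∃ D₀ ∈ Prn L, ∀ (Q : Pl L) (r : ℝ),
      (∀ P : Pl K, Ov L P Q → ei P Q * r ≤ D P) → r ≤ D₀ Q

/-! ### forms -/

/-- **GRS**: the residues of the line at a Gauss place -/
def GRS : Prop := For2 fun J K _ _ _ _ _ _ => ∀ (P : Pl K) (z : K), Med J P z →
  Rs J⟮z⟯ P = Subfield.closure (insert (P.rd z) (Rs J P))

/-- **FU**: the uniform fibre form -/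
def FU : Prop := ∃ c : ℝ, 0 < c ∧ For2 fun L K _ _ _ _ _ _ => ∀ n, FF L n → ∀ t : K, Ru L t →
  ∀ X : BD K, Pf (n + 1) X → (∀ P, Tv L P → -(1 / 100) ≤ X P ∧ X P ≤ 0) →
  ∃ g : BD L, Fb n X g ∧
    (∀ (P P' : Pl K) (Q : Pl L), Ov L P Q → Ov L P' Q → P ≠ P' → ei P Q = 1 → ei P' Q = 1 →
      |X P - X P'| ≤ 1 / 100 → c - X P ≤ g Q) ∧
    ∀ (P : Pl K) (Q : Pl L), Ov L P Q → ei P Q = 1 → Irr L P → c - X P ≤ g Q

/-- **FG**: the general fibre form -/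
def FG : Prop := For3 fun J L K _ _ _ _ _ _ _ _ _ _ _ _ _ => ∀ n, FF J n → ∀ (z : L) (t : K),
  Ru J z → Ru L t → ∀ X : BD K, Pf (n + 2) X → (∀ P, Tv J P → -(1 / 100) ≤ X P) →
  (∀ P, Tv L P → X P ≤ 0) → ∃ g : BD L, Fb (n + 1) X g ∧ ∀ Q, Tv J Q → g Q ≤ 55 / 100

/-- **DEG**: degrees on the line -/
def DEG : Prop := For2 fun J L _ _ _ _ _ _ => ∀ n, FF J n → ∀ z : L, Ru J z →
  ∃ δ : Pl L → ℕ, (∀ Q, Tv J Q → 1 ≤ δ Q) ∧ (∀ Q, ¬ Tv J Q → δ Q = 0) ∧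
    (∀ Z ∈ Prn L, {Q | Tv J Q ∧ Z Q ≠ 0}.Finite ∧ ∑ᶠ Q, δ Q * Z Q = 0) ∧
    ({Q | Tv J Q ∧ cn L (n + 1) Q ≠ 0}.Finite ∧ ∑ᶠ Q, δ Q * cn L (n + 1) Q = -2) ∧
    (∀ Z : BD L, {Q | Tv J Q ∧ Z Q ≠ 0}.Finite → ∑ᶠ Q, δ Q * Z Q = 0 →
      ∃ Z' ∈ Prn L, ∀ Q, Tv J Q → Z' Q = Z Q) ∧
    ∀ y : L, Ru J y → ∃ Q, Tv J Q ∧ δ Q = 1 ∧ Q.ord y = 1 ∧ ∀ Q', Tv J Q' → 0 < Q'.ord y → Q' = Q

/-- **FB**: base forms with given weights -/
def FB : Prop := For2 fun J L _ _ _ _ _ _ => ∀ n, FF J n → ∀ z : L, Ru J z → ∀ Y : BD L,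
  Y - cn L (n + 1) ∈ Prn L → (∀ P, Tv J P → -1 ≤ Y P ∧ Y P ≤ 0) → ∃ g : BD J, Fb n Y g

/-- **FT3**: the forms with poles at `0, ∞, 1` and at `0, ∞` -/
def FT3 : Prop := For2 fun J L _ _ _ _ _ _ => ∀ n, FF J n → ∀ z : L, Ru J z →
  (∃ Y : BD L, Y - cn L (n + 1) ∈ Prn L ∧
    (∀ P, Tv J P → Y P = if P.ord z ≠ 0 ∨ P.ord (1 - z) ≠ 0 then -(2 / 3) else 0) ∧
    ∀ P Q, Ov J P Q → ei P Q * (cn J n Q + 1) - 1 ≤ Y P ∧
      (¬ Med J P z → ei P Q * (cn J n Q + 1) - 1 + 1 / 3 ≤ Y P)) ∧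
  ∃ Y : BD L, Y - cn L (n + 1) ∈ Prn L ∧
    (∀ P, Tv J P → Y P = if P.ord z ≠ 0 then -1 else 0) ∧
    ∀ P Q, Ov J P Q → ei P Q * (cn J n Q + 1) - 1 ≤ Y P ∧
      (ei P Q = 1 → (¬ ∃ c : J, Med J P (algebraMap J L c * z)) →
        ei P Q * (cn J n Q + 1) ≤ Y P)

/-! ### one class of conics -/

section core

variable {J K : Type} [Field J] [Algebra ℂ J] [Field K] [Algebra ℂ K] [Algebra J K]

variable (J) in
/-- the marked point `y = 0` carries two primes -/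
def Mk (G : Set (Pl K)) (X : BD K) (y : K) : Prop := ∀ P ∈ G, Tv J P → P.ord y = 1 →
  ∃ P₁ P₂ : Pl K, P₁ ≠ P₂ ∧ Tv J P₁ ∧ Tv J P₂ ∧ P₁.ord y = 1 ∧ P₂.ord y = 1 ∧
    |X P₁ - X P₂| ≤ 1 / 100 ∧ X P₁ ≤ 0

variable (J) in
/-- the input of one class -/
structure Inp (G : Set (Pl K)) (X : BD K) (z t : K) : Prop where
  fj : FF J 2
  fk : FF K 4
  gen : J⟮z, t⟯ = ⊤
  pf : Pf 4 X
  low : ∀ P, Tv J P → -(1 / 100) ≤ X P
  up : ∀ P, Tv J⟮z⟯ P → X P ≤ 0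
  good : ∀ P ∈ G, X P ≤ 0

/-- the output of one class, with the gain `c` on `W` -/
structure Out (G : Set (Pl K)) (X : BD K) (X₀ : BD J) (W : Pl K → Prop) (c : ℝ) (D : BD K) :
    Prop where
  prn : D ∈ Prn K
  hor : ∀ P ∈ G, Tv J P → 0 ≤ D P
  ver : ∀ P Q, Ov J P Q → ei P Q * (X₀ Q + 1) - 1 - X P ≤ D P
  gain : ∀ P Q, Ov J P Q → W P → ei P Q * (X₀ Q + 1) - 1 - X P + c ≤ D P

end core

/-- **C3**: three marked points -/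
def C3 : Prop := ∃ c : ℝ, 0 < c ∧ For2 fun J K _ _ _ _ _ _ => ∀ G X (z t : K) (X₀ : BD J),
  Inp J G X z t → X₀ - cn J 2 ∈ Prn J → Mk J G X z → Mk J G X z⁻¹ → Mk J G X (1 - z) →
  ∃ D, Out G X X₀ (fun P => ¬ Med J P z ∨ E1 J P ∧ Irr J⟮z⟯ P) c D

/-- **C2**: two marked points -/
def C2 : Prop := ∃ c : ℝ, 0 < c ∧ For2 fun J K _ _ _ _ _ _ => ∀ G X (z t : K) (X₀ : BD J),
  Inp J G X z t → X₀ - cn J 2 ∈ Prn J → Mk J G X z → Mk J G X z⁻¹ →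
  ∃ D, Out G X X₀ (fun P => E1 J P ∧
    ((¬ ∃ c : J, Med J P (algebraMap J K c * z)) ∨ Irr J⟮z⟯ P)) c D

/-! ### field models -/

/-- the splitting of the generic fibre of `K / K₀` -/
structure Tow (K₀ K : Type) [Field K₀] [Algebra ℂ K₀] [Field K] [Algebra ℂ K] [Algebra K₀ K] where
  J : Type
  F : Type
  [fJ : Field J]
  [cJ : Algebra ℂ J]
  [fF : Field F]
  [cF : Algebra ℂ F]
  [aJ : Algebra K₀ J]
  [aK : Algebra K F]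
  [aF : Algebra J F]
  [a0 : Algebra K₀ F]
  [t1 : IsScalarTower ℂ K₀ J]
  [t2 : IsScalarTower ℂ K F]
  [t3 : IsScalarTower ℂ J F]
  [t4 : IsScalarTower K₀ J F]
  [t5 : IsScalarTower K₀ K F]
  [fdJ : FiniteDimensional K₀ J]
  [gJ : IsGalois K₀ J]
  [fdF : FiniteDimensional K F]
  [gF : IsGalois K F]
  gen : IntermediateField.adjoin K (range (algebraMap J F)) = ⊤
  rkJ : Module.finrank K₀ J ≤ 120
  rkF : Module.finrank K F ≤ 120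

attribute [instance] Tow.fJ Tow.cJ Tow.fF Tow.cF Tow.aJ Tow.aK Tow.aF Tow.a0 Tow.t1 Tow.t2 Tow.t3
  Tow.t4 Tow.t5 Tow.fdJ Tow.gJ Tow.fdF Tow.gF

/-- the cross ratios `y ρ = [ab][cd] / ([ac][bd])` of five points, `(a, b, c, d) = ρ (0, 1, 2, 3)` -/
structure CR {F : Type} [Field F] (y : Perm (Fin 5) → F) : Prop where
  inv : ∀ ρ, y (ρ * swap 1 2) * y ρ = 1
  add : ∀ ρ, y (ρ * swap 1 3) + y ρ = 1
  sym : ∀ ρ, y (ρ * (swap 0 1 * swap 2 3)) = y ρ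
  mul : ∀ ρ, y ρ = y (ρ * swap 3 4) * y (ρ * swap 0 4)

section models

variable {K₀ K : Type} [Field K₀] [Algebra ℂ K₀] [Field K] [Algebra ℂ K] [Algebra K₀ K]

/-- a subfield of the splitting field belongs to the class -/
def Tow.Typ (T : Tow K₀ K) (S : Cls) : Prop := ∃ M : IntermediateField K₀ T.J, S M

/-- two different primes of `O` over the point `y = 0` -/
def Tow.Two (T : Tow K₀ K) (O : Set (Pl K)) (y : T.F) : Prop :=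
  ∃ (P₁ P₂ : Pl T.F) (Q₁ Q₂ : Pl K), P₁ ≠ P₂ ∧ Tv T.J P₁ ∧ Tv T.J P₂ ∧ P₁.ord y = 1 ∧
    P₂.ord y = 1 ∧ Ov K P₁ Q₁ ∧ Ov K P₂ Q₂ ∧ Q₁ ∈ O ∧ Q₂ ∈ O

/-- the places which are trivial on the line of `z` belong to `O` -/
def Tow.Up (T : Tow K₀ K) (O : Set (Pl K)) (z : T.F) : Prop :=
  ∀ (P : Pl T.F) (Q : Pl K), Ov K P Q → Tv T.J⟮z⟯ P → Q ∈ O

/-- five points with a faithful Galois action -/
structure Tow.Pts (T : Tow K₀ K) (y : Perm (Fin 5) → T.F) (π : (T.F ≃ₐ[K] T.F) →* Perm (Fin 5)) :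
    Prop where
  cr : CR y
  inj : Function.Injective π
  eqv : ∀ σ ρ, σ (y ρ) = y (π σ * ρ)
  gen : IntermediateField.adjoin T.J (range y) = ⊤

/-- the quintic del Pezzo surface -/
def Tow.M5 (T : Tow K₀ K) (O : Set (Pl K)) : Prop :=
  ∃ y π, T.Pts y π ∧ ∀ ρ, T.Up O (y ρ) ∧ T.Two O (y ρ)

/-- the conic bundle of degree five -/
def Tow.M4 (T : Tow K₀ K) (O : Set (Pl K)) : Prop :=
  ∃ y π, T.Pts y π ∧ (∀ σ, π σ 4 = 4) ∧ ∀ ρ : Perm (Fin 5), ρ 4 = 4 → T.Up O (y ρ) ∧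
    ∃ σ, (π σ (ρ 0) = ρ 2 ∧ π σ (ρ 1) = ρ 3) ∨ (π σ (ρ 0) = ρ 3 ∧ π σ (ρ 1) = ρ 2)

/-- the sextic del Pezzo surface -/
def Tow.M6 (T : Tow K₀ K) (O : Set (Pl K)) : Prop :=
  ∃ z : Fin 3 → T.F, z 0 * z 1 * z 2 = 1 ∧ IntermediateField.adjoin T.J (range z) = ⊤ ∧
    (∀ σ : T.F ≃ₐ[K] T.F, σ ≠ 1 → ∃ (ρ : Perm (Fin 3)) (s : ℤ), (s = 1 ∨ s = -1) ∧
      (ρ ≠ 1 ∨ s = -1) ∧ ∀ i, ∃ c : T.J, σ (z i) = algebraMap T.J T.F c * z (ρ i) ^ s) ∧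
    ∀ i, T.Up O (z i) ∧ T.Two O (z i) ∧ T.Two O (z i)⁻¹

/-- the conclusion of the algebraic part -/
def Tow.Res (T : Tow K₀ K) (O : Set (Pl K)) (c : ℝ) : Prop :=
  ∀ (G : Set (Pl K)) (X : BD K), O ⊆ G → Pf 4 X → (∀ P, -(1 / 100) ≤ X P) →
    (∀ P ∈ G, X P ≤ 0) → ∃ D ∈ Prn K, (∀ P ∈ G, Tv K₀ P → 0 ≤ D P) ∧
      ∀ P Q, Ov K₀ P Q → ei P Q * (cn K₀ 2 Q + c * Br K₀ T.J Q) - X P ≤ D P

end models

/-- a statement for all splittings -/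
def ForT (P : ∀ (K₀ K : Type) [Field K₀] [Algebra ℂ K₀] [Field K] [Algebra ℂ K] [Algebra K₀ K],
    Tow K₀ K → Prop) : Prop :=
  For2 fun K₀ K _ _ _ _ _ _ => FF K₀ 2 → FF K 4 → ∀ T : Tow K₀ K, P K₀ K T

/-- **ABH**: the inertia groups upstairs -/
def ABH : Prop := ForT fun K₀ K _ _ _ _ _ T => ∀ (P : Pl T.F) (P₀ : Pl K), Ov K P P₀ →
  (Tv K₀ P₀ → ei P P₀ = 1 ∧ Tv T.J P) ∧ ei P P₀ ≤ 120 ∧ ∀ Q : Pl K₀, Ov K₀ P₀ Q → ei P₀ Q = 1 →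
    Br K₀ T.J Q ≠ 0 → E1 T.J P ∧ ∃ σ : T.F ≃ₐ[K] T.F, σ ≠ 1 ∧ Ine P σ

/-- **DSC**: descent of an average of outputs in which every ramified place gains -/
def DSC : Prop := ∀ c : ℝ, 0 < c → ∀ N : ℕ, ∃ c' : ℝ, 0 < c' ∧ ForT fun K₀ K _ _ _ _ _ T =>
  ∀ (O : Set (Pl K)) (ι : Type) [Fintype ι] [Nonempty ι] (W : ι → Pl T.F → Prop),
    Fintype.card ι ≤ N →
    (∀ (P : Pl T.F) (σ : T.F ≃ₐ[K] T.F), σ ≠ 1 → Ine P σ → E1 T.J P → ¬ Tv T.J P → ∃ i, W i P) →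
    (∀ (G : Set (Pl K)) (X : BD K) (X' : BD T.F) (X₀ : BD T.J), O ⊆ G → Pf 4 X' →
      (∀ P, -(1 / 100) ≤ X P) → (∀ P ∈ G, X P ≤ 0) →
      (∀ P Q, Ov K P Q → X' P + 1 = ei P Q * (X Q + 1)) → X₀ - cn T.J 2 ∈ Prn T.J →
      ∀ i, ∃ D, Out {P | Tv T.J P ∧ ∃ Q ∈ G, Ov K P Q} X' X₀ (W i) c D) → T.Res O c'

/-- **R5**, **R4**, **R6** -/
def R5 : Prop := ∃ c : ℝ, 0 < c ∧ ForT fun K₀ K _ _ _ _ _ T => ∀ O, T.M5 O → T.Res O c

/-- **R4** -/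
def R4 : Prop := ∃ c : ℝ, 0 < c ∧ ForT fun K₀ K _ _ _ _ _ T => ∀ O, T.M4 O → T.Res O c

/-- **R6** -/
def R6 : Prop := ∃ c : ℝ, 0 < c ∧ ForT fun K₀ K _ _ _ _ _ T => ∀ O, T.M6 O → T.Res O c

/-! ### geometry -/

/-- the horizontal primes of `V Λ` -/
def Oh {K : Type} [Field K] [Algebra ℂ K] (Λ B : BD K) : Set (Pl K) :=
  {P | On 3 Λ P ∧ Hor (fld B) P}

/-- **FMA**: the field model of a del Pezzo fibration with potential -/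
def FMA : Prop := ∀ (S : Cls) (d : ℕ), SCl d S → ∀ (K : Type) [Field K] [Algebra ℂ K], FF K 4 →
  ∀ Λ B Γ : BD K, MFS 3 Λ B Γ → dim B = 2 → Pot2 S Λ B Γ →
    ∃ T : Tow (fld B) K, T.Typ S ∧ (T.M5 (Oh Λ B) ∨ T.M6 (Oh Λ B))

/-- **FMB**: the field model of a conic bundle with potential -/
def FMB : Prop := ∀ (S : Cls) (d : ℕ), SCl d S → ∀ (K : Type) [Field K] [Algebra ℂ K], FF K 4 →
  ∀ Λ B Γ : BD K, MFS 3 Λ B Γ → dim B = 3 → ∀ L₂, Pot3' S L₂ (fld B) →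
    ∃ T : Tow L₂ K, T.Typ S ∧ T.M4 (Oh Λ B)

/-- **PERT**: the perturbed pluricanonical form -/
def PERT : Prop := ForS fun n K _ _ => ∀ R A b : BD K, Smp R → CarQ R → Smp A → CarQ A → Big A →
  0 ≤ dsc (n + 1) (R - A) → b ∈ CarZ K → 0 ≤ b → ∀ ε : ℝ, 0 < ε → ∃ (η : ℝ) (X : BD K), 0 < η ∧
    Pf (n + 1) X ∧ (∀ P, -ε ≤ X P) ∧
      ∀ P, dsc (n + 1) (R - A) P = 0 → Hor (fld R) P → X P ≤ -η * b P

open Classical in
/-- **TEST**: the test curve -/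
def TEST : Prop := ∀ (K : Type) [Field K] [Algebra ℂ K], FF K 4 → ∀ Λ R : BD K, Smp Λ → Big Λ →
  Smp R → Dsc Λ R → dim R ≤ 3 → ∃ τ : BD K →ₗ[ℝ] ℝ, (∀ D ∈ Prn K, τ D = 0) ∧
    (∀ β ∈ Car K, (∀ P, On 3 Λ P → Hor (fld R) P → 0 ≤ β P) → 0 ≤ τ β) ∧
    ∀ g, g ∉ fld R → 0 < τ (mx {1, g})

/-- **EXN**: the adjoint class of the branch divisor is not pseudo-effective -/
def EXN : Prop := ∀ (K : Type) [Field K] [Algebra ℂ K], FF K 4 →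
  ∀ R A Λ B Γ E, Link 3 R A Λ B Γ E → dim R ≤ 3 → ∀ i (K₀ : IntermediateField ℂ K), FF K₀ 2 →
    ¬ K₀ ≤ fld R → ∀ (T : Tow K₀ K) (c : ℝ), T.Res (Oh (Λ i) (B i)) c →
      ¬ Psef (cn K₀ 2 + c • Br K₀ T.J)

/-- **END**: covers of bounded degree with a bounded branch divisor -/
def END : Prop := ∀ c : ℝ, 0 < c → ∃ d₀ : ℕ, ∀ d, d₀ ≤ d → For2 fun L M _ _ _ _ _ _ => FF L 2 →
  Module.finrank L M ≤ 120 → ∀ H f, IsS d M H f → Psef (cn L 2 + c • Br L M)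

end Vale.Agent.P287D.Hd
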