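import Vale.Agent.P287D.Hd.Ln

/-!
# P287D, hidden covers: the forms with poles at two and at three points of the line
-/

open Set Polynomial
open Vale.Agent.P297Z Vale.Agent.P287D.Cb

noncomputable section

namespace Vale.Agent.P287D.Hd

namespace Ln

variable {J L : Type} [Field J] [Algebra ℂ J] [Field L] [Algebra ℂ L] [Algebra J L]
  [IsScalarTower ℂ J L] {P : Pl L} {z : L} {n : ℕ} {y : Fin n → J} {Q : Pl J}

/-- the basic inequality -/
theorem k4p (hJ : FF J n) (h : Ru J z) (hy : AlgebraicIndependent ℂ y) (l : Ov J P Q) {p : J[X]}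
    (hp : derivative p ≠ 0) : ei P Q * (kap y Q + 1) - 1 + P.ord (aeval z p) ≤
      kap (cw y z) P + P.ord (aeval z (derivative p)) := by
  obtain ⟨d, -, -, d1, d2⟩ := exists_der hJ h hy
  obtain ⟨a, b⟩ := d2 (aeval z p) (d1 p ▸ h.ne hp)
  have := k4 hJ (h.ff hJ) l a
  rw [b, Pi.add_apply, dv_apply, d1] at this
  linarith

theorem k4m (hJ : FF J n) (h : Ru J z) (hy : AlgebraicIndependent ℂ y) (l : Ov J P Q)
    (hz : z ∈ P.ring) (m : ¬ Med J P z) : ei P Q * (kap y Q + 1) ≤ kap (cw y z) P := by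
  obtain ⟨p, p1, p2, p3⟩ := exists_sep hz m
  have p0 : derivative p ≠ 0 := fun e => p3 (by rw [e, map_zero]; exact mx_zero)
  have a := k4p hJ h hy l p0
  have b := (mx_iff.1 p1).resolve_left (h.ne fun e => p0 (by rw [e, map_zero]))
  have c : (1 : ℝ) ≤ P.ord (aeval z p) := by exact_mod_cast b
  rw [Pl.ord_unit _ p2 (inv_mem_of p3), Int.cast_zero] at a
  linarith

omit [Algebra ℂ L] in
theorem tri (P : Vale.Agent.P297.Place L) (h0 : z ≠ 0) :
    (0 < P.ord z ∧ P.ord (1 - z) = 0) ∨ (P.ord z < 0 ∧ P.ord (1 - z) = P.ord z) ∨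
      (P.ord z = 0 ∧ 0 ≤ P.ord (1 - z)) := by
  rcases lt_trichotomy 0 (P.ord z) with k | k | k
  · refine .inl ⟨k, ?_⟩
    rw [sub_eq_add_neg, Pl.ord_add_eq_of_lt P one_ne_zero (neg_ne_zero.2 h0) (by simpa using k),
      Pl.ord_one]
  · exact .inr (.inr ⟨k.symm, Pl.ord_nonneg_of_mem P
      (sub_mem (one_mem _) ((Pl.ord_nonneg_iff P h0).1 k.le))⟩)
  · refine .inr (.inl ⟨k, ?_⟩)
    rw [sub_eq_neg_add, Pl.ord_add_eq_of_lt P (neg_ne_zero.2 h0) one_ne_zero (by simpa using k),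
      Pl.ord_neg]

omit [Algebra ℂ J] [Algebra ℂ L] [IsScalarTower ℂ J L] in
theorem ru_mul (h : Ru J z) {c : J} (hc : c ≠ 0) : Ru J (algebraMap J L c * z) := by
  have e : z = algebraMap J L c⁻¹ * (algebraMap J L c * z) := by
    rw [← mul_assoc, ← map_mul, inv_mul_cancel₀ hc, map_one, one_mul]
  refine ⟨fun a => h.1 ?_, eq_top_iff.2 (h.2.ge.trans (IntermediateField.adjoin_simple_le_iff.2 ?_))⟩
  · rw [e]
    exact (isAlgebraic_algebraMap _).mul a
  · conv_rhs => rw [e]
    exact mul_mem (algebraMap_mem _ _) (IntermediateField.mem_adjoin_simple_self J _)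

theorem ord_le_one (h : Ru J z) (t : Tv J P) (k : 0 < P.ord z) : P.ord z = 1 := by
  simpa using (fp_X h t k).ord h

end Ln

open Ln

/-- **FT3** -/
theorem ft3 : FT3 := by
  intro J L _ _ _ _ _ _ n hJ z h
  obtain ⟨y, D, hD, e⟩ := exists_cn hJ
  have hy : AlgebraicIndependent ℂ y :=
    (jac_ne_iff hD y).1 (by rw [jac_self hD]; exact one_ne_zero)
  obtain ⟨f, -, e'⟩ := kap_cn (h.ff hJ) (cw_ind h hy)
  have pr : ∀ β ∈ Prn L, kap (cw y z) - β - cn L (n + 1) ∈ Prn L := fun β hβ => by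
    rw [e', sub_right_comm, add_sub_cancel_left]
    exact sub_mem (dv_mem_Prn f) hβ
  have z0 := h.ne_zero
  have e1 : aeval z (1 - X : J[X]) = 1 - z := by simp
  have h1 : Ru J (1 - z) := by
    refine ⟨fun a => h.1 ?_, eq_top_iff.2 (h.2.ge.trans
      (IntermediateField.adjoin_simple_le_iff.2 ?_))⟩
    · simpa using isAlgebraic_one.sub a
    · simpa using sub_mem (one_mem _) (IntermediateField.mem_adjoin_simple_self J (1 - z))
  have ka : ∀ P Q, Ov J P Q → ei P Q * (kap y Q + 1) - 1 + P.ord z ≤ kap (cw y z) P :=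
    fun P Q l => by
      have := k4p hJ h hy l (p := X) (by rw [derivative_X]; exact one_ne_zero)
      rwa [aeval_X, derivative_X, map_one, Pl.ord_one, Int.cast_zero, add_zero] at this
  have kb : ∀ P Q, Ov J P Q → ei P Q * (kap y Q + 1) - 1 + P.ord (1 - z) ≤ kap (cw y z) P :=
    fun P Q l => by
      have e2 : derivative (1 - X : J[X]) = -1 := by simp
      have := k4p hJ h hy l (p := 1 - X) (by rw [e2]; exact neg_ne_zero.2 one_ne_zero)
      rwa [e1, e2, map_neg, map_one, Pl.ord_neg, Pl.ord_one, Int.cast_zero, add_zero] at this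
  have inf : ∀ P : Pl L, Tv J P → P.ord z < 0 → P.ord z = -1 ∧ kap (cw y z) P = -2 :=
    fun P t k => by
      have := ord_le_one h.rcp t (by rw [Pl.ord_inv]; omega)
      rw [Pl.ord_inv] at this
      exact ⟨by omega, kap_inf hJ h hy t fun m => (Pl.ord_nonneg_of_mem _ m).not_gt k⟩
  rw [e]
  refine ⟨⟨_, pr ((2 / 3 : ℝ) • (dv z + dv (1 - z))) (Submodule.smul_mem _ _
    (add_mem (dv_mem_Prn _) (dv_mem_Prn _))), fun P t => ?_, fun P Q l => ?_⟩,
    _, pr (dv z) (dv_mem_Prn _), fun P t => ?_, fun P Q l => ⟨?_, fun k m => ?_⟩⟩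
  · simp only [Pi.sub_apply, Pi.smul_apply, Pi.add_apply, dv_apply, smul_eq_mul]
    rcases tri P.toPlace z0 with ⟨a, b⟩ | ⟨a, b⟩ | ⟨a, b⟩
    · rw [kap_fin hJ h hy t (mem_ord a.le), b, ord_le_one h t a]
      norm_num
    · rw [b, (inf P t a).1, (inf P t a).2]
      norm_num
    · rw [kap_fin hJ h hy t (mem_ord a.ge), a]
      rcases b.eq_or_lt with b | b
      · simp [← b]
      · simp [ord_le_one h1 t b]
  · simp only [Pi.sub_apply, Pi.smul_apply, Pi.add_apply, dv_apply, smul_eq_mul]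
    have a1 := ka P Q l
    have a2 := kb P Q l
    rcases tri P.toPlace z0 with ⟨a, b⟩ | ⟨a, b⟩ | ⟨a, b⟩
    · have : (1 : ℝ) ≤ P.ord z := by exact_mod_cast a
      rw [b, Int.cast_zero]
      exact ⟨by linarith, fun _ => by linarith⟩
    · have : (P.ord z : ℝ) ≤ -1 := by exact_mod_cast Int.le_sub_one_of_lt a
      rw [b]
      exact ⟨by linarith, fun _ => by linarith⟩
    · have c : (0 : ℝ) ≤ P.ord (1 - z) := by exact_mod_cast b
      rw [a, Int.cast_zero]
      refine ⟨by linarith, fun m => ?_⟩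
      have a3 := k4m hJ h hy l (mem_ord a.ge) m
      rcases b.eq_or_lt with b | b
      · rw [← b, Int.cast_zero]
        linarith
      · have : (1 : ℝ) ≤ P.ord (1 - z) := by exact_mod_cast b
        linarith
  · simp only [Pi.sub_apply, dv_apply]
    rcases lt_trichotomy 0 (P.ord z) with a | a | a
    · simp [kap_fin hJ h hy t (mem_ord a.le), ord_le_one h t a]
    · simp [kap_fin hJ h hy t (mem_ord a.le), ← a]
    · rw [(inf P t a).1, (inf P t a).2]
      norm_num
  · simp only [Pi.sub_apply, dv_apply]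
    linarith [ka P Q l]
  · have c0 : Q.t ^ (-P.ord z) ≠ 0 := zpow_ne_zero _ Q.t_ne
    have o : P.ord (algebraMap J L (Q.t ^ (-P.ord z))) = -P.ord z := by
      rw [map_zpow₀, Pl.ord_zpow, show P.ord (algebraMap J L Q.t) = 1 from k, mul_one]
    have a := k4m hJ (ru_mul h c0) hy l (mem_ord (by
      rw [Pl.ord_mul _ ((_root_.map_ne_zero _).2 c0) z0, o, neg_add_cancel])) fun m' => m ⟨_, m'⟩
    obtain ⟨d, d1, d2, -, d3⟩ := exists_der hJ h hy
    have b : d (algebraMap J L (Q.t ^ (-P.ord z)) * z) = algebraMap J L (Q.t ^ (-P.ord z)) := by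
      rw [Derivation.leibniz, d1, d2]
      simp
    rw [(d3 _ (by rw [b]; exact (_root_.map_ne_zero _).2 c0)).2, b, Pi.add_apply, dv_apply, o] at a
    simpa [dv_apply, sub_eq_add_neg] using a

end Vale.Agent.P287D.Hd
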