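import Vale.Agent.P287D.Hd.Ln

/-!
# P287D, hidden covers: degrees on the line
-/

set_option linter.unusedSectionVars false

open Set Polynomial
open scoped IntermediateField
open Vale.Agent.P297Z Vale.Agent.P287D.Cb

noncomputable section

namespace Vale.Agent.P287D.Hd

namespace Ln

variable {J L : Type} [Field J] [Algebra ℂ J] [Field L] [Algebra ℂ L] [Algebra J L]
  [IsScalarTower ℂ J L] {P : Pl L} {z : L} {p : J[X]} {Z Z' : BD L}

open Classical in
variable (J) in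
/-- the degree of a place of the line -/
def dl (P : Pl L) : ℕ :=
  if h : Tv J P then @Module.finrank J P.κ _ _ (tvh h : J →+* P.κ).toAlgebra.toModule else 0

theorem Fp.dl (a : Fp z P p) (h : Ru J z) : dl J P = p.natDegree := by
  rw [Ln.dl, dif_pos a.tv]
  let := (tvh a.tv : J →+* P.κ).toAlgebra
  have k : ∀ q : J[X], P.rd (aeval z q) = aeval (P.rd z) q := fun q => (rd_ev a.tv a.mem q).2
  have k0 : aeval (P.rd z) p = 0 := by
    rw [← k, rd_eq_zero (rd_ev a.tv a.mem p).1]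
    exact (a.mx p).2 dvd_rfl
  have top : J⟮P.rd z⟯ = ⊤ := eq_top_iff.2 fun u _ => by
    obtain ⟨f, hf, rfl⟩ := rd_surj u
    obtain ⟨r, s, hs, rfl⟩ := a.frac h hf
    have s1 := (rd_ev a.tv a.mem s).1
    obtain ⟨b1, b2⟩ := rd_inv' s1 (mt ((rd_eq_zero s1).trans (a.mx s)).1 hs)
    rw [div_eq_mul_inv, rd_mul (rd_ev a.tv a.mem r).1 b1, b2, k, k]
    exact (IntermediateField.mem_adjoin_simple_iff J _).2 ⟨r, s, (div_eq_mul_inv _ _).symm⟩
  rw [← IntermediateField.finrank_top', ← top,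
    IntermediateField.adjoin.finrank ⟨p, a.mon, k0⟩,
    ← minpoly.eq_of_irreducible_of_monic a.irr k0 a.mon]

variable (J) in
/-- finite support on the line -/
def Fn (Z : BD L) : Prop := {Q | Tv J Q ∧ Z Q ≠ 0}.Finite

variable (J) in
/-- the degree -/
def sm (Z : BD L) : ℝ := ∑ᶠ Q, dl J Q * Z Q

theorem dl_of_not (h : ¬ Tv J P) : dl J P = 0 := dif_neg h

theorem Fn.sup (h : Fn J Z) : (Function.support fun Q => (dl J Q : ℝ) * Z Q).Finite :=
  h.subset fun Q hQ => ⟨by_contra fun k => hQ (by simp [dl_of_not k]), right_ne_zero_of_mul hQ⟩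

theorem Fn.congr (h : Fn J Z) (e : ∀ Q, Tv J Q → Z' Q = Z Q) : Fn J Z' :=
  h.subset fun Q hQ => ⟨hQ.1, e Q hQ.1 ▸ hQ.2⟩

theorem sm_congr (e : ∀ Q, Tv J Q → Z' Q = Z Q) : sm J Z' = sm J Z :=
  finsum_congr fun Q => by
    by_cases k : Tv J Q
    · rw [e Q k]
    · simp [dl_of_not k]

theorem Fn.add (h : Fn J Z) (h' : Fn J Z') : Fn J (Z + Z') :=
  (h.union h').subset fun Q hQ => by
    by_contra k
    simp only [mem_union, mem_ofPred_eq, hQ.1, true_and, not_or, not_not] at k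
    exact hQ.2 (by simp [k.1, k.2])

theorem Fn.smul (h : Fn J Z) (c : ℝ) : Fn J (c • Z) :=
  h.subset fun _ hQ => ⟨hQ.1, right_ne_zero_of_mul hQ.2⟩

theorem sm_add (h : Fn J Z) (h' : Fn J Z') : sm J (Z + Z') = sm J Z + sm J Z' := by
  simp only [sm, Pi.add_apply, mul_add]
  exact finsum_add_distrib h.sup h'.sup

theorem sm_smul (c : ℝ) (Z : BD L) : sm J (c • Z) = c * sm J Z := by
  simp only [sm, Pi.smul_apply, smul_eq_mul, mul_left_comm _ c]
  exact (mul_finsum _ _).symm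

theorem fn_δ (P : Pl L) : Fn J P.δ :=
  (finite_singleton P).subset fun _ hQ => by_contra fun k => hQ.2 (Pl.δ_ne k)

theorem sm_δ (P : Pl L) : sm J P.δ = dl J P := by
  rw [sm, finsum_eq_single _ P fun Q k => by rw [Pl.δ_ne k, mul_zero], Pl.δ_self, mul_one]

variable (J L) in
/-- the divisors of degree zero -/
def D0 : Submodule ℝ (BD L) where
  carrier := {Z | Fn J Z ∧ sm J Z = 0}
  add_mem' a b := ⟨a.1.add b.1, by rw [sm_add a.1 b.1, a.2, b.2, add_zero]⟩
  zero_mem' := ⟨finite_empty.subset fun _ h => h.2 rfl, by simp [sm]⟩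
  smul_mem' c _ a := ⟨a.1.smul c, by rw [sm_smul, a.2, mul_zero]⟩

variable {I : Pl L}

theorem not_mem_iff (h : Ru J z) (i : Fp z⁻¹ I (X : J[X])) (t : Tv J P) : z ∉ P.ring ↔ P = I := by
  refine ⟨fun k => (fp_inf h t k).uniq h.rcp i, fun e k => ?_⟩
  have := i.ord h.rcp
  have := Pl.ord_nonneg_of_mem _ (e ▸ k)
  rw [aeval_X, Pl.ord_inv] at *
  omega

theorem dv_irr (h : Ru J z) (i : Fp z⁻¹ I (X : J[X])) (a : Fp z P p) (Q : Pl L) (t : Tv J Q) :
    dv (aeval z p) Q = (P.δ + (-p.natDegree : ℝ) • I.δ) Q := by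
  have n : I ≠ P := fun e => (not_mem_iff h i a.tv).2 e.symm a.mem
  rw [Pi.add_apply, Pi.smul_apply, dv_apply, smul_eq_mul]
  by_cases k : z ∈ Q.ring
  · rw [Pl.δ_ne (P := I) fun e => (not_mem_iff h i t).2 e k, mul_zero, add_zero]
    by_cases e : Q = P
    · rw [e, a.ord h, Pl.δ_self, Int.cast_one]
    · obtain ⟨q, b⟩ := exists_fp h t k
      rw [Pl.δ_ne e, b.ord_of fun d => e ((b.eq_of a.irr a.mon ((b.mx p).2 d) ▸ b).uniq h a),
        Int.cast_zero]
  · rw [(not_mem_iff h i t).1 k, Pl.δ_ne n, Pl.δ_self, ord_inf h i a.irr.ne_zero]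
    simp

theorem dl_inf (h : Ru J z) (i : Fp z⁻¹ I (X : J[X])) : dl J I = 1 := by
  rw [i.dl h.rcp, natDegree_X]

theorem prn_le (h : Ru J z) : Prn L ≤ D0 J L := by
  obtain ⟨I, i⟩ := exists_pl h.rcp irreducible_X monic_X
  have c : ∀ a : J, dv (algebraMap J L a) ∈ D0 J L := fun a =>
    have e : ∀ Q : Pl L, Tv J Q → dv (algebraMap J L a) Q = (0 : BD L) Q := fun Q t => by
      simp [dv_apply, t.ord]
    ⟨(zero_mem (D0 J L)).1.congr e, (sm_congr e).trans (zero_mem (D0 J L)).2⟩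
  have k : ∀ q : J[X], dv (aeval z q) ∈ D0 J L := fun q => by
    induction q using WfDvdMonoid.induction_on_irreducible with
    | zero => rw [map_zero, dv_zero]; exact zero_mem _
    | unit u hu =>
      obtain ⟨a, -, rfl⟩ := isUnit_iff.1 hu
      rw [aeval_C]
      exact c a
    | mul r q r0 hq ih =>
      have l0 := leadingCoeff_ne_zero.2 hq.ne_zero
      obtain ⟨P, a⟩ := exists_pl h (p := q * C q.leadingCoeff⁻¹)
        ((irreducible_mul_isUnit (isUnit_C.2 (inv_ne_zero l0).isUnit)).2 hq)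
        (monic_mul_leadingCoeff_inv hq.ne_zero)
      have e := dv_irr h i a
      have m : dv (aeval z (q * C q.leadingCoeff⁻¹)) ∈ D0 J L :=
        ⟨((fn_δ P).add ((fn_δ I).smul _)).congr e, by
          rw [sm_congr e, sm_add (fn_δ P) ((fn_δ I).smul _), sm_smul, sm_δ, sm_δ, a.dl h,
            dl_inf h i]
          simp⟩
      rw [map_mul, aeval_C, dv_mul (h.ne hq.ne_zero) ((_root_.map_ne_zero _).2 (inv_ne_zero l0))]
        at m
      rw [map_mul, dv_mul (h.ne hq.ne_zero) (h.ne r0)]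
      exact add_mem ((add_mem_cancel_right (c _)).1 m) ih
  refine Submodule.span_le.2 ?_
  rintro _ ⟨f, rfl⟩
  obtain ⟨a, b, b0, rfl⟩ := h.frac f
  by_cases a0 : a = 0
  · simp [a0]
  · rw [dv_div (h.ne a0) (h.ne b0)]
    exact sub_mem (k a) (k b)

theorem exists_prn (h : Ru J z) (hZ : Z ∈ D0 J L) : ∃ Z' ∈ Prn L, ∀ Q, Tv J Q → Z' Q = Z Q := by
  classical
  obtain ⟨I, i⟩ := exists_pl h.rcp irreducible_X monic_X
  have k : ∀ P : Pl L, ∃ f : L, Tv J P → ∀ Q, Tv J Q → Q ≠ I → dv f Q = P.δ Q := fun P => by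
    by_cases t : Tv J P
    · by_cases m : z ∈ P.ring
      · obtain ⟨p, a⟩ := exists_fp h t m
        exact ⟨aeval z p, fun _ Q u n => by simp [dv_irr h i a Q u, Pl.δ_ne n]⟩
      · exact ⟨0, fun _ Q _ n => by
          rw [dv_zero, Pl.δ_ne ((not_mem_iff h i t).1 m ▸ n), Pi.zero_apply]⟩
    · exact ⟨0, fun e => (t e).elim⟩
  choose f hf using k
  have m : ∑ P ∈ hZ.1.toFinset, Z P • dv (f P) ∈ Prn L :=
    sum_mem fun P _ => Submodule.smul_mem _ _ (dv_mem_Prn _)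
  have e : ∀ Q, Tv J Q → Q ≠ I → (∑ P ∈ hZ.1.toFinset, Z P • dv (f P)) Q = Z Q := fun Q t n => by
    rw [Finset.sum_apply, Finset.sum_congr rfl fun P hP => by
      rw [Pi.smul_apply, hf P (hZ.1.mem_toFinset.1 hP).1 Q t n],
      Finset.sum_eq_single Q (fun P _ k => by rw [Pl.δ_ne k.symm, smul_zero]) fun k => by
        rw [not_not.1 fun c => k (hZ.1.mem_toFinset.2 ⟨t, c⟩), zero_smul], Pl.δ_self, smul_eq_mul,
      mul_one]
  refine ⟨_, m, fun Q t => ?_⟩
  by_cases n : Q = I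
  · have a := (sub_mem (prn_le h m) hZ).2
    generalize ∑ P ∈ hZ.1.toFinset, Z P • dv (f P) = W at *
    rw [sm_congr (Z := (W I - Z I) • I.δ) fun R u => by
      by_cases c : R = I
      · simp [c, Pl.δ_self]
      · simp [Pl.δ_ne c, e R u c], sm_smul, sm_δ, dl_inf h i] at a
    rw [n]
    simpa [sub_eq_zero] using a
  · exact e Q t n

end Ln

open Ln

/-- **DEG** -/
theorem deg : DEG := by
  intro J L _ _ _ _ _ _ n hJ z h
  obtain ⟨I, i⟩ := exists_pl h.rcp irreducible_X monic_X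
  refine ⟨dl J, fun Q t => ?_, fun Q => dl_of_not, fun Z hZ => prn_le h hZ, ?_,
    fun Z a b => exists_prn h ⟨a, b⟩, fun y hy => ?_⟩
  · by_cases m : z ∈ Q.ring
    · obtain ⟨p, a⟩ := exists_fp h t m
      exact a.dl h ▸ a.irr.natDegree_pos
    · rw [(not_mem_iff h i t).1 m, dl_inf h i]
  · obtain ⟨y, hy, -⟩ := id hJ
    obtain ⟨f, -, e⟩ := cn_kap (h.ff hJ) (cw_ind h hy)
    have k : ∀ Q, Tv J Q → kap (cw y z) Q = ((-2 : ℝ) • I.δ) Q := fun Q t => by
      by_cases m : z ∈ Q.ring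
      · simp [kap_fin hJ h hy t m, Pl.δ_ne fun c => (not_mem_iff h i t).2 c m]
      · rw [kap_inf hJ h hy t m, (not_mem_iff h i t).1 m]
        simp [Pl.δ_self]
    have a := ((fn_δ I).smul (-2)).congr k
    have b := prn_le h (dv_mem_Prn f)
    rw [e]
    refine ⟨a.add b.1, (sm_add a b.1).trans ?_⟩
    rw [b.2, sm_congr k, sm_smul, sm_δ, dl_inf h i]
    simp
  · obtain ⟨Q, a⟩ := exists_pl hy irreducible_X monic_X
    exact ⟨Q, a.tv, by rw [a.dl hy, natDegree_X], by simpa using a.ord hy,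
      fun Q' t k => (fp_X hy t k).uniq hy a⟩

end Vale.Agent.P287D.Hd
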