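import Vale.Agent.P287D.Hd.Top
import Vale.Agent.P287D.Pb.Res

/-!
# P287D, hidden covers: one class of conics (rows `C3`, `C2`)
-/

set_option linter.unusedVariables false
set_option linter.unusedSectionVars false

open Set
open scoped IntermediateField
open Vale.Agent.P297Z

noncomputable section

namespace Vale.Agent.P287D.Hd

/-- the choice of the weights on the line -/
theorem wts {α : Type} (S : Finset α) (δ a b m : α → ℝ) (N : α → Prop) {θ : ℝ} (h0 : 0 < θ)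
    (h1 : θ ≤ 1 / 10) (hδ : ∀ x ∈ S, 1 ≤ δ x) (ha : ∑ x ∈ S, δ x * a x = 2)
    (hb : ∑ x ∈ S, δ x * b x = 2) (hm : ∑ x ∈ S, δ x * m x = 2) (m0 : ∀ x ∈ S, 0 ≤ m x)
    (a1 : ∀ x ∈ S, a x ≤ 55 / 100)
    (hN : ∀ x ∈ S, N x → 0 ≤ a x ∧ 0 ≤ b x ∧ θ * m x ≤ 5 / 6 * a x + 1 / 6 * b x) :
    ∃ w : α → ℝ, (∀ x, 0 ≤ w x ∧ w x ≤ 1) ∧ (∀ x ∉ S, w x = 0) ∧ ∑ x ∈ S, δ x * w x = 2 ∧
      ∀ x ∈ S, N x → θ * m x + (1 - θ) * w x ≤ 5 / 6 * a x + 1 / 6 * b x := by
  classical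
  have t : 0 < 1 - θ := by linarith
  let v : α → ℝ := fun x => (5 / 6 * a x + 1 / 6 * b x - θ * m x) / (1 - θ)
  let u : α → ℝ := fun x => if x ∈ S then if N x then min 1 (v x) else 1 else 0
  have v0 : ∀ x ∈ S, N x → 0 ≤ v x := fun x hx n => div_nonneg (by linarith [hN x hx n]) t.le
  have ve : ∀ x, (1 - θ) * v x = 5 / 6 * a x + 1 / 6 * b x - θ * m x := fun x =>
    mul_div_cancel₀ _ t.ne'
  have u0 : ∀ x, 0 ≤ u x ∧ u x ≤ 1 := fun x => by
    simp only [u]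
    split_ifs with p q
    · exact ⟨le_min zero_le_one (v0 x p q), min_le_left _ _⟩
    all_goals norm_num
  have s2 : 2 ≤ ∑ x ∈ S, δ x * u x := by
    by_cases c : ∀ x ∈ S, N x
    · have e : ∀ x ∈ S, u x = v x := fun x hx => by
        have p : δ x * b x ≤ 2 := hb ▸ Finset.single_le_sum (f := fun x => δ x * b x)
          (fun y hy => mul_nonneg (by linarith [hδ y hy]) (hN y hy (c y hy)).2.1) hx
        have q := hN x hx (c x hx)
        have r : b x ≤ 2 := by nlinarith [hδ x hx]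
        simp only [u, if_pos hx, if_pos (c x hx)]
        refine min_eq_right ((div_le_one t).2 ?_)
        nlinarith [a1 x hx, m0 x hx]
      refine le_of_mul_le_mul_left (le_of_eq ?_) t
      rw [Finset.mul_sum, Finset.sum_congr rfl (g := fun x => 5 / 6 * (δ x * a x) +
        1 / 6 * (δ x * b x) - θ * (δ x * m x)) fun x hx => by rw [e x hx, mul_left_comm, ve]; ring]
      rw [Finset.sum_sub_distrib, Finset.sum_add_distrib, ← Finset.mul_sum, ← Finset.mul_sum,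
        ← Finset.mul_sum, ha, hb, hm]
      ring
    · push Not at c
      obtain ⟨y, hy, ny⟩ := c
      have e : ∀ x ∈ S, 5 / 6 * (δ x * a x) - θ * (δ x * m x) + (if x = y then 13 / 24 else 0) ≤
          δ x * u x := fun x hx => by
        have p := hδ x hx
        have q := a1 x hx
        have r := mul_nonneg h0.le (m0 x hx)
        by_cases n : N x
        · have k : 5 / 6 * a x - θ * m x ≤ u x := by
            simp only [u, if_pos hx, if_pos n]
            refine le_min (by linarith) ?_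
            nlinarith [ve x, v0 x hx n, (hN x hx n).2.1]
          rw [if_neg fun e : x = y => ny (e ▸ n)]
          nlinarith
        · simp only [u, if_pos hx, if_neg n]
          split_ifs <;> nlinarith
      have := Finset.sum_le_sum e
      rw [Finset.sum_add_distrib, Finset.sum_sub_distrib, ← Finset.mul_sum, ← Finset.mul_sum, ha,
        hm, Finset.sum_ite_eq' S y, if_pos hy] at this
      linarith
  set σ := ∑ x ∈ S, δ x * u x with hσ
  have σ0 : 0 < σ := by linarith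
  have s0 : 0 ≤ 2 / σ := by positivity
  have s1 : 2 / σ ≤ 1 := (div_le_one σ0).2 s2
  refine ⟨fun x => 2 / σ * u x, fun x => ⟨mul_nonneg s0 (u0 x).1, by nlinarith [u0 x]⟩,
    fun x hx => by simp only [u, if_neg hx, mul_zero], ?_, fun x hx n => ?_⟩
  · simp only [mul_left_comm _ (2 / σ)]
    rw [← Finset.mul_sum, ← hσ, div_mul_cancel₀ _ σ0.ne']
  · have k : u x ≤ v x := by
      simp only [u, if_pos hx, if_pos n]
      exact min_le_right _ _
    have k' : 2 / σ * u x ≤ v x := by nlinarith [u0 x]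
    nlinarith [ve x]

section two

variable {L K : Type} [Field L] [Algebra ℂ L] [Field K] [Algebra ℂ K] [Algebra L K]

theorem Ov.one_le {P : Pl K} {Q : Pl L} (h : Ov L P Q) : (1 : ℝ) ≤ ei P Q := by
  exact_mod_cast (h.e_pos : 0 < ei P Q)

theorem Ov.ord' {P : Pl K} {Q : Pl L} (h : Ov L P Q) (x : L) :
    P.ord (algebraMap L K x) = ei P Q * Q.ord x := h.ord x

theorem Ov.pb' {P : Pl K} {Q : Pl L} (h : Ov L P Q) (β : BD L) :
    pb (algebraMap L K) β P = ei P Q * β Q := h.pb β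

theorem Ov.of_one {P : Pl K} {Q : Pl L} (h : Ov L P Q) {x : L}
    (e : P.ord (algebraMap L K x) = 1) : ei P Q = 1 ∧ Q.ord x = 1 := by
  rw [h.ord'] at e
  have p : 0 < ei P Q := h.e_pos
  have q := Int.eq_one_of_mul_eq_one_right p.le e
  exact ⟨q, by rwa [q, one_mul] at e⟩

theorem Fb.nn {n : ℕ} {X : BD K} {g : BD L} (h : Fb n X g) {P : Pl K} {Q : Pl L} (o : Ov L P Q)
    (x : X P ≤ 0) : 0 ≤ g Q ∧ (ei P Q ≠ 1 → 1 / 2 ≤ g Q) := by
  have a := h.low P Q o
  have b := o.one_le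
  refine ⟨by nlinarith, fun e => ?_⟩
  have p : 0 < ei P Q := o.e_pos
  have c : (2 : ℝ) ≤ ei P Q := by exact_mod_cast (by omega : 2 ≤ ei P Q)
  nlinarith

theorem tr_le {t : K} (h : L⟮t⟯ = ⊤) :
    Algebra.trdeg L K ≤ 1 ∧ (IsAlgebraic L t → Algebra.trdeg L K = 0) := by
  refine ⟨?_, fun a => ?_⟩
  · have : Algebra.IsAlgebraic (Algebra.adjoin L {t}) K := by
      rw [← IntermediateField.isAlgebraic_adjoin_iff_top, h]
      exact ⟨fun x => isAlgebraic_algebraMap (⟨x, trivial⟩ : (⊤ : IntermediateField L K))⟩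
    simpa using Algebra.IsAlgebraic.trdeg_le_cardinalMk L ({t} : Set K)
  · have := IntermediateField.isAlgebraic_adjoin_simple a.isIntegral
    rw [h] at this
    exact trdeg_eq_zero_iff.2 (IntermediateField.topEquiv.isAlgebraic)

theorem gen_top (z : K) : L⟮IntermediateField.AdjoinSimple.gen L z⟯ = ⊤ :=
  IntermediateField.lift_injective _ (by
    rw [IntermediateField.lift_adjoin_simple, IntermediateField.lift_top]; rfl)

theorem Ru.inv {z : K} (h : Ru L z) : Ru L z⁻¹ :=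
  ⟨fun a => h.1 (by simpa using a.inv), top_le_iff.1 (h.2.ge.trans
    (IntermediateField.adjoin_simple_le_iff.2 (by
      simpa using inv_mem (IntermediateField.mem_adjoin_simple_self L z⁻¹))))⟩

theorem Ru.sub {z : K} (h : Ru L z) : Ru L (1 - z) :=
  ⟨fun a => h.1 (by simpa using (isAlgebraic_one.isIntegral.sub a.isIntegral).isAlgebraic),
    top_le_iff.1 (h.2.ge.trans (IntermediateField.adjoin_simple_le_iff.2 (by
      simpa using sub_mem (one_mem _) (IntermediateField.mem_adjoin_simple_self L (1 - z)))))⟩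

end two

section three

variable {J L K : Type} [Field J] [Algebra ℂ J] [Field L] [Algebra ℂ L] [Field K]
  [Algebra ℂ K] [Algebra J L] [Algebra L K] [Algebra J K] [IsScalarTower J L K]
  {P : Pl K} {β : Pl L}

theorem Ov.tv (h : Ov L P β) : Tv J P ↔ Tv J β := forall_congr' fun f => by
  rw [IsScalarTower.algebraMap_apply J L K]
  exact (h _).symm

theorem Ov.down (h : Ov L P β) {Q : Pl J} (h' : Ov J P Q) : Ov J β Q :=
  h.of_comp (by rwa [← IsScalarTower.algebraMap_eq])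

theorem Ov.rs (h : Ov L P β) : Rs J P = (Rs J β).map h.κ := by
  rw [Rs, Rs, RingHom.map_field_closure]
  congr 1
  ext a
  constructor
  · rintro ⟨x, p, rfl⟩
    rw [IsScalarTower.algebraMap_apply J L K] at p ⊢
    exact ⟨_, ⟨x, (h _).2 p, rfl⟩, h.isRd _ ((h _).2 p)⟩
  · rintro ⟨_, ⟨x, p, rfl⟩, rfl⟩
    refine ⟨x, ?_, ?_⟩ <;> rw [IsScalarTower.algebraMap_apply J L K]
    · exact (h _).1 p
    · exact h.isRd _ p

theorem Ov.med (h : Ov L P β) {z : L} (m : Med J β z) : Med J P (algebraMap L K z) := by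
  refine ⟨(h z).1 m.1, ?_⟩
  rw [← h.isRd z m.1, h.rs]
  exact m.2.ringHom_of_comp_eq ((Rs J β).toSubring.equivMapOfInjective h.κ h.κ.injective) h.κ
    (EquivLike.surjective _) h.κ.injective (RingHom.ext fun _ => rfl)

end three

/-- the common part of `C3` and `C2` -/
theorem core (fu : FU) (fg : FG) (dg : DEG) (fb : FB) : ∃ θ : ℝ, 0 < θ ∧
    For3 fun J L K _ _ _ _ _ _ _ _ _ _ _ _ _ => ∀ (G : Set (Pl K)) (X : BD K) (z : L) (t : K)
      (X₀ : BD J) (Y : BD L) (V : Pl L → Pl J → Prop), FF J 2 → FF L 3 → FF K 4 → Ru J z → Ru L t →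
      Pf 4 X → (∀ P, Tv J P → -(1 / 100) ≤ X P) → (∀ P, Tv L P → X P ≤ 0) → (∀ P ∈ G, X P ≤ 0) →
      X₀ - cn J 2 ∈ Prn J → Y - cn L 3 ∈ Prn L →
      (∀ β, Tv J β → -1 ≤ Y β ∧ Y β ≤ 0 ∧
        (Y β ≠ 0 → ∃ y, Ru J y ∧ 0 < β.ord y ∧ Mk J G X (algebraMap L K y))) →
      (∀ β Q, Ov J β Q → ei β Q * (cn J 2 Q + 1) - 1 ≤ Y β ∧
        (V β Q → ei β Q * (cn J 2 Q + 1) - 1 + 1 / 3 ≤ Y β)) →
      ∃ D, Out G X X₀ (fun P => (∀ β Q, Ov L P β → Ov J β Q → V β Q) ∨ E1 J P ∧ Irr L P) θ D := by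
  classical
  obtain ⟨c, c0, fu⟩ := fu
  let θ := min (c / 6) (1 / 10)
  have θ0 : 0 < θ := lt_min (by positivity) (by norm_num)
  have θ1 : θ ≤ 1 / 10 := min_le_right _ _
  have θ2 : θ ≤ c / 6 := min_le_left _ _
  refine ⟨θ / 3, by positivity, fun J L K _ _ _ _ _ _ _ _ _ _ _ _ _ G X z t X₀ Y V hJ hL hK rz rt pf
    low up good h0 hY yh yv => ?_⟩
  have okJ : Ok (algebraMap J L) := tv_or_ov hL
  have okL : Ok (algebraMap L K) := tv_or_ov hK
  obtain ⟨b, fb', g1, g2⟩ := fu L K 3 hL t rt X pf fun P h =>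
    ⟨low P fun f => by rw [IsScalarTower.algebraMap_apply J L K]; exact h _, up P h⟩
  obtain ⟨a, fa, a1⟩ := fg J L K 2 hJ z t rz rt X pf low up
  obtain ⟨δ, d1, d0, dp, ⟨cf, cs⟩, de, dm⟩ := dg J L 2 hJ z rz
  have fin : ({Q | Tv J Q ∧ cn L 3 Q ≠ 0} ∪ {Q | Tv J Q ∧ (a + cn L 3) Q ≠ 0} ∪
      {Q | Tv J Q ∧ (b + cn L 3) Q ≠ 0} ∪ {Q | Tv J Q ∧ (Y - cn L 3) Q ≠ 0}).Finite :=
    ((cf.union (dp _ fa.prn).1).union (dp _ fb'.prn).1).union (dp _ hY).1
  let S := fin.toFinset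
  have hS : ∀ Q ∈ S, Tv J Q := fun Q h => by
    rcases fin.mem_toFinset.1 h with ((h | h) | h) | h <;> exact h.1
  have out : ∀ Q ∉ S, Tv J Q → cn L 3 Q = 0 ∧ a Q = 0 ∧ b Q = 0 ∧ Y Q = 0 := fun Q h k => by
    simp only [S, fin.mem_toFinset, mem_union, mem_ofPred_eq, k, true_and, not_or, not_not,
      Pi.add_apply, Pi.sub_apply] at h
    obtain ⟨⟨⟨p, q⟩, r⟩, s⟩ := h
    exact ⟨p, by linarith, by linarith, by linarith⟩
  have sm : ∀ Z : BD L, (∀ Q ∉ S, Tv J Q → Z Q = 0) →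
      ∑ᶠ Q, (δ Q : ℝ) * Z Q = ∑ Q ∈ S, δ Q * Z Q := fun Z h =>
    finsum_eq_sum_of_support_subset _ fun Q hQ => by
      by_contra n
      by_cases k : Tv J Q
      · exact hQ (by simp only [h Q n k, mul_zero])
      · exact hQ (by simp only [d0 Q k, Nat.cast_zero, zero_mul])
  rw [sm _ fun Q h k => (out Q h k).1] at cs
  have sg : ∀ g : BD L, g + cn L 3 ∈ Prn L → (∀ Q ∉ S, Tv J Q → g Q = 0) →
      ∑ Q ∈ S, (δ Q : ℝ) * g Q = 2 := fun g p h => by
    have := (dp _ p).2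
    rw [sm _ fun Q n k => by rw [Pi.add_apply, h Q n k, (out Q n k).1, add_zero]] at this
    simp only [Pi.add_apply, mul_add, Finset.sum_add_distrib] at this
    linarith
  obtain ⟨w, w0, wS, ws, wN⟩ := wts S (fun Q => δ Q) a b (-Y) (fun Q => ∃ P ∈ G, Ov L P Q) θ0 θ1
    (fun Q h => by exact_mod_cast d1 Q (hS Q h)) (sg a fa.prn fun Q n k => (out Q n k).2.1)
    (sg b fb'.prn fun Q n k => (out Q n k).2.2.1)
    (sg _ (by simpa [sub_eq_neg_add] using neg_mem hY) fun Q n k => by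
      rw [Pi.neg_apply, (out Q n k).2.2.2, neg_zero])
    (fun Q h => neg_nonneg.2 (yh Q (hS Q h)).2.1) (fun Q h => a1 Q (hS Q h)) (by
      rintro Q h ⟨P, p, o⟩
      have k := hS Q h
      have na := fa.nn o (good P p)
      have nb := fb'.nn o (good P p)
      obtain ⟨y1, y2, y3⟩ := yh Q k
      refine ⟨na.1, nb.1, ?_⟩
      rw [Pi.neg_apply]
      by_cases y0 : Y Q = 0
      · rw [y0]; linarith
      have m1 : θ * -Y Q ≤ θ := by nlinarith
      by_cases e : ei P Q = 1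
      · obtain ⟨y, ry, py, mk⟩ := y3 y0
        obtain ⟨Q₀, -, -, q1, qu⟩ := dm y ry
        obtain rfl := qu Q k py
        obtain ⟨P₁, P₂, ne, t1, t2, o1, o2, ab, x1⟩ :=
          mk P p (o.tv.2 k) (by rw [o.ord', e, q1, one_mul])
        have ov : ∀ R : Pl K, Tv J R → R.ord (algebraMap L K y) = 1 → Ov L R Q ∧ ei R Q = 1 := by
          intro R tr or
          rcases okL R with s | ⟨Q', s⟩
          · rw [s.ord] at or; omega
          · have := Ov.of_one s or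
            obtain rfl := qu Q' ((Ov.tv s).1 tr) (by omega)
            exact ⟨s, this.1⟩
        have := g1 P₁ P₂ Q (ov _ t1 o1).1 (ov _ t2 o2).1 ne (ov _ t1 o1).2 (ov _ t2 o2).2 ab
        linarith
      · linarith [na.2 e, nb.2 e])
  obtain ⟨Z, zp, ze⟩ := de (-w - cn L 3) (S.finite_toSet.subset fun Q h => by
      by_contra n
      exact h.2 (by rw [Pi.sub_apply, Pi.neg_apply, wS Q n, (out Q n h.1).1]; simp)) (by
    rw [sm _ fun Q n k => by rw [Pi.sub_apply, Pi.neg_apply, wS Q n, (out Q n k).1]; simp]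
    simp only [Pi.sub_apply, Pi.neg_apply, mul_sub, mul_neg, Finset.sum_sub_distrib,
      Finset.sum_neg_distrib]
    linarith)
  have zw : ∀ Q, Tv J Q → (Z + cn L 3) Q = -w Q := fun Q k => by
    rw [Pi.add_apply, ze Q k, Pi.sub_apply, Pi.neg_apply]; ring
  obtain ⟨g, fg'⟩ := fb J L 2 hJ z rz (Z + cn L 3) (by simpa using zp) fun Q k => by
    rw [zw Q k]; constructor <;> linarith [w0 Q]
  let U : BD L := (5 / 6 : ℝ) • (a + cn L 3) + (1 / 6 : ℝ) • (b + cn L 3) + θ • (Y - cn L 3) +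
    (1 - θ) • (Z + pb (algebraMap J L) (g + cn J 2)) + pb (algebraMap J L) (X₀ - cn J 2)
  have up' : U ∈ Prn L := add_mem (add_mem (add_mem (add_mem (Submodule.smul_mem _ _ fa.prn)
    (Submodule.smul_mem _ _ fb'.prn)) (Submodule.smul_mem _ _ hY))
    (Submodule.smul_mem _ _ (add_mem zp (okJ.prn fg'.prn)))) (okJ.prn h0)
  have ue : ∀ β, U β = 5 / 6 * a β + 1 / 6 * b β + θ * Y β + (1 - θ) * ((Z + cn L 3) β +
      pb (algebraMap J L) (g + cn J 2) β) + pb (algebraMap J L) (X₀ - cn J 2) β := fun β => by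
    simp only [U, Pi.add_apply, Pi.sub_apply, Pi.smul_apply, smul_eq_mul]; ring
  have key : ∀ P Q, Ov J P Q → ∃ β, Ov L P β ∧ Ov J β Q ∧ ∀ r s : ℝ,
      ei β Q * (cn J 2 Q + 1) - 1 + r ≤ Y β → ei P β - 1 - X P + s ≤ ei P β * b β → 0 ≤ r →
      ei P Q * (X₀ Q + 1) - 1 - X P + (θ * r + s / 6) ≤ pb (algebraMap L K) U P := fun P Q o => by
    obtain ⟨β, h⟩ := (okL P).resolve_left fun s => o.not_trv fun f => by
      rw [IsScalarTower.algebraMap_apply J L K]; exact s _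
    have h' := Ov.down h o
    refine ⟨β, h, h', fun r s hr hs r0 => ?_⟩
    have e1 := Ov.one_le h
    have la := fa.low P β h
    have lg := fg'.low β Q h'
    rw [Ov.pb' h, ue, h'.pb', h'.pb', (ei_comp h h').2]
    simp only [Pi.add_apply, Pi.sub_apply] at lg ⊢
    push_cast
    have k1 := mul_le_mul_of_nonneg_left hr θ0.le
    have k2 := mul_le_mul_of_nonneg_left lg (by linarith : 0 ≤ 1 - θ)
    have k3 : (ei β Q : ℝ) * (X₀ Q + 1) - 1 + θ * r ≤ θ * Y β + (1 - θ) * (Z β + cn L 3 β +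
        ei β Q * (g Q + cn J 2 Q)) + ei β Q * (X₀ Q - cn J 2 Q) := by linarith
    have k4 := mul_le_mul_of_nonneg_left k3 (zero_le_one.trans e1)
    have k5 := mul_le_mul_of_nonneg_right e1 (mul_nonneg θ0.le r0)
    linarith
  refine ⟨pb (algebraMap L K) U, okL.prn up', fun P p k => ?_, fun P Q o => ?_, fun P Q o v => ?_⟩
  · rcases okL P with s | ⟨β, h⟩
    · rw [s.pb]
    have k' := (Ov.tv h).1 k
    rw [Ov.pb' h, ue, k'.pb, k'.pb, zw β k']
    refine mul_nonneg (zero_le_one.trans (Ov.one_le h)) ?_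
    by_cases s : β ∈ S
    · have := wN β s ⟨P, p, h⟩
      rw [Pi.neg_apply] at this
      linarith
    · obtain ⟨-, p1, p2, p3⟩ := out β s k'
      simp [p1, p2, p3, wS β s]
  · obtain ⟨β, h, h', k⟩ := key P Q o
    simpa using k 0 0 (by simpa using (yv β Q h').1) (by simpa using fb'.low P β h) le_rfl
  · obtain ⟨β, h, h', k⟩ := key P Q o
    rcases v with v | ⟨⟨x, v⟩, i⟩
    · have := k (1 / 3) 0 ((yv β Q h').2 (v β Q h h')) (by simpa using fb'.low P β h) (by norm_num)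
      linarith
    · rw [IsScalarTower.algebraMap_apply J L K] at v
      have e := (h.of_one v).1
      have := k 0 c (by simpa using (yv β Q h').1) (by
        rw [e]; push_cast; linarith [g2 P β h e i]) le_rfl
      linarith

section inp

variable {J K : Type} [Field J] [Algebra ℂ J] [Field K] [Algebra ℂ K] [Algebra J K]
  [IsScalarTower ℂ J K] {G : Set (Pl K)} {X : BD K} {z t : K}

theorem Inp.line (h : Inp J G X z t) :
    FF J⟮z⟯ 3 ∧ Ru J (IntermediateField.AdjoinSimple.gen J z) ∧ Ru J⟮z⟯ t := by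
  have : IsScalarTower ℂ J⟮z⟯ K := .of_algebraMap_eq fun _ => rfl
  have g : J⟮z⟯⟮t⟯ = ⊤ := IntermediateField.restrictScalars_injective J (by
    rw [IntermediateField.adjoin_simple_adjoin_simple, h.gen]; rfl)
  obtain ⟨m, -, hm⟩ := Gm.ff_alg (L := J⟮z⟯) h.fk
  obtain ⟨a1, a0⟩ := tr_le (gen_top (L := J) z)
  obtain ⟨b1, b0⟩ := tr_le g
  have e1 := trdeg_add_eq ℂ J (A := J⟮z⟯)
  have e2 := trdeg_add_eq ℂ J⟮z⟯ (A := K)
  obtain ⟨a, ha⟩ := Cardinal.lt_aleph0.1 (a1.trans_lt Cardinal.one_lt_aleph0)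
  obtain ⟨b, hb⟩ := Cardinal.lt_aleph0.1 (b1.trans_lt Cardinal.one_lt_aleph0)
  rw [h.fj.trdeg, hm.trdeg, ha] at e1
  rw [h.fk.trdeg, hm.trdeg, hb] at e2
  rw [ha] at a1 a0
  rw [hb] at b1 b0
  norm_cast at e1 e2 a1 b1 a0 b0
  obtain rfl : m = 3 := by omega
  exact ⟨hm, ⟨fun k => by have := a0 k; omega, gen_top z⟩, fun k => by have := b0 k; omega, g⟩

theorem Out.mono {X₀ : BD J} {W W' : Pl K → Prop} {c : ℝ} {D : BD K} (h : Out G X X₀ W c D)
    (e : ∀ P, W' P → W P) : Out G X X₀ W' c D :=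
  ⟨h.prn, h.hor, h.ver, fun P Q o w => h.gain P Q o (e P w)⟩

end inp

theorem c3 (fu : FU) (fg : FG) (dg : DEG) (fb : FB) (ft : FT3) : C3 := by
  obtain ⟨θ, p, h⟩ := core fu fg dg fb
  refine ⟨θ, p, fun J K _ _ _ _ _ _ G X z t X₀ i h0 m1 m2 m3 => ?_⟩
  have : IsScalarTower ℂ J⟮z⟯ K := .of_algebraMap_eq fun _ => rfl
  obtain ⟨hL, rz, rt⟩ := i.line
  obtain ⟨⟨Y, y1, y2, y3⟩, -⟩ := ft J J⟮z⟯ 2 i.fj _ rz
  obtain ⟨D, d⟩ := h J J⟮z⟯ K G X _ t X₀ Y (fun β _ => ¬ Med J β _) i.fj hL i.fk rz rt i.pf i.low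
    i.up i.good h0 y1 (fun β k => by
      rw [y2 β k]
      split_ifs with q
      · refine ⟨by norm_num, by norm_num, fun _ => ?_⟩
        rcases lt_trichotomy 0 (β.ord (IntermediateField.AdjoinSimple.gen J z)) with r | r | r
        · exact ⟨_, rz, r, m1⟩
        · refine ⟨_, rz.sub, lt_of_le_of_ne (Pl.ord_nonneg_of_mem _ (sub_mem (one_mem _)
            ((Pl.ord_nonneg_iff _ fun e => rz.1 (by rw [e]; exact isAlgebraic_zero)).1 r.le)))
            (q.resolve_left (not_not.2 r.symm)).symm, m3⟩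
        · exact ⟨_, rz.inv, by rwa [Pl.ord_inv, neg_pos], m2⟩
      · simp) y3
  exact ⟨D, d.mono fun P => Or.imp_left fun w β Q o _ m => w (o.med m)⟩

theorem c2 (fu : FU) (fg : FG) (dg : DEG) (fb : FB) (ft : FT3) : C2 := by
  obtain ⟨θ, p, h⟩ := core fu fg dg fb
  refine ⟨θ, p, fun J K _ _ _ _ _ _ G X z t X₀ i h0 m1 m2 => ?_⟩
  have : IsScalarTower ℂ J⟮z⟯ K := .of_algebraMap_eq fun _ => rfl
  obtain ⟨hL, rz, rt⟩ := i.line
  obtain ⟨-, Y, y1, y2, y3⟩ := ft J J⟮z⟯ 2 i.fj _ rz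
  obtain ⟨D, d⟩ := h J J⟮z⟯ K G X _ t X₀ Y (fun β Q => ei β Q = 1 ∧
    ¬ ∃ c : J, Med J β (algebraMap J _ c * IntermediateField.AdjoinSimple.gen J z)) i.fj hL i.fk rz
    rt i.pf i.low i.up i.good h0 y1 (fun β k => by
      rw [y2 β k]
      split_ifs with q
      · refine ⟨by norm_num, by norm_num, fun _ => ?_⟩
        rcases q.lt_or_gt with r | r
        · exact ⟨_, rz.inv, by rwa [Pl.ord_inv, neg_pos], m2⟩
        · exact ⟨_, rz, r, m1⟩
      · simp) fun β Q o => ⟨(y3 β Q o).1, fun v => by linarith [(y3 β Q o).2 v.1 v.2]⟩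
  refine ⟨D, d.mono fun P ⟨⟨x, e⟩, w⟩ => w.imp (fun w β Q o o' => ⟨?_, fun ⟨c, m⟩ =>
    w ⟨c, o.med m⟩⟩) fun w => ⟨⟨x, e⟩, w⟩⟩
  rw [IsScalarTower.algebraMap_apply J J⟮z⟯ K] at e
  exact (o'.of_one (o.of_one e).2).1

end Vale.Agent.P287D.Hd
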