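import Vale.Agent.P287D.Hd.Cm
import Vale.Agent.P287D.Cb.Row

/-!
# P287D, hidden covers: descent of an average of outputs
-/

set_option linter.unusedSectionVars false

open Set
open Vale.Agent.P297Z

noncomputable section

namespace Vale.Agent.P287D.Hd

section two

variable {L K : Type} [Field L] [Algebra ℂ L] [Field K] [Algebra ℂ K] [Algebra L K] {n : ℕ}

theorem ei_pos {P : Pl K} {Q : Pl L} (h : Ov L P Q) : 1 ≤ ei P Q := h.e_pos

/-- the Hurwitz formula -/
theorem hur_ex [IsScalarTower ℂ L K] (hL : FF L n) (hK : FF K n) : ∃ f : K, f ≠ 0 ∧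
    ∀ P Q, Ov L P Q → (cn K n + dv f) P + 1 = ei P Q * (cn L n Q + 1) :=
  Cb.pb_hur n L K (algebraMap L K) hL hK fun c => (IsScalarTower.algebraMap_apply ℂ L K c).symm

/-- the pull back of a pluricanonical form along a finite extension -/
theorem Pf.up [IsScalarTower ℂ L K] [FiniteDimensional L K] (hL : FF L n) {X : BD L}
    (h : Pf n X) : ∃ X' : BD K, Pf n X' ∧ ∀ P Q, Ov L P Q → X' P + 1 = ei P Q * (X Q + 1) := by
  have hK : FF K n := ff_up hL
  obtain ⟨f, f0, hf⟩ := hur_ex hL hK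
  obtain ⟨m, g, m0, g0, hg⟩ := h
  refine ⟨cn K n + dv f + pb (algebraMap L K) (X - cn L n), ⟨m, f ^ m * algebraMap L K g, m0,
    mul_ne_zero (pow_ne_zero _ f0) ((map_ne_zero _).2 g0), ?_⟩, fun P Q o => ?_⟩
  · have ok : Ok (algebraMap L K) := tv_or_ov hK
    funext P
    have h1 := congrFun (ok.pb_dv g) P
    rw [← hg, pb_smul] at h1
    simp only [dv, Pi.smul_apply, Pi.add_apply, Pi.sub_apply, smul_eq_mul] at h1 ⊢
    rw [Pl.ord_mul _ (pow_ne_zero _ f0) ((map_ne_zero _).2 g0), Pl.ord_pow]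
    push_cast
    linarith
  · have h1 := hf P Q o
    have h2 := o.pb (X - cn L n)
    simp only [Pi.add_apply, Pi.sub_apply, ei] at h1 h2 ⊢
    linarith

end two

section three

variable {J L K : Type} [Field J] [Algebra ℂ J] [Field L] [Algebra ℂ L] [Field K] [Algebra ℂ K]
  [Algebra J L] [Algebra L K] [Algebra J K] [IsScalarTower J L K] {P : Pl K} {Q : Pl L} {R : Pl J}

theorem Ov.trans (h : Ov L P Q) (k : Ov J Q R) : Ov J P R := fun f =>
  (k f).trans ((h _).trans (by rw [← IsScalarTower.algebraMap_apply]))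

theorem Ov.of_trans (h : Ov L P Q) (k : Ov J P R) : Ov J Q R := fun f =>
  (k f).trans (by rw [IsScalarTower.algebraMap_apply J L K]; exact (h _).symm)

theorem ei_mul (h : Ov L P Q) (R : Pl J) : ei P R = ei P Q * ei Q R := by
  rw [ei, IsScalarTower.algebraMap_apply J L K, h.ord]; rfl

theorem Tv.down (h : Tv L P) : Tv J P := fun f => by
  rw [IsScalarTower.algebraMap_apply J L K]; exact h _

end three

/-- **DSC** -/
theorem dsc_of (hG : GAL) (hA : ABH) : DSC := fun c c0 N => by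
  classical
  have N0 : (0 : ℝ) < N + 1 := by positivity
  refine ⟨min (1 / 2) (c / (120 * (N + 1))), lt_min (by norm_num) (by positivity), ?_⟩
  intro K₀ K _ _ _ _ _ _ h0 hK T O ι _ _ W hN hW hO G X hOG hX hl hg
  obtain ⟨X', pX, hX'⟩ := Pf.up (K := T.F) hK hX
  obtain ⟨f, f0, hf⟩ := hur_ex h0 (T.ffJ h0)
  choose D hD using hO G X X' (cn T.J 2 + dv f) hOG pX hl hg hX'
    (by rw [add_sub_cancel_left]; exact Submodule.subset_span ⟨f, rfl⟩)
  have k0 : (0 : ℝ) < Fintype.card ι := Nat.cast_pos.2 Fintype.card_pos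
  have kN : (Fintype.card ι : ℝ) ≤ N + 1 := (Nat.cast_le.2 hN).trans (by linarith)
  obtain ⟨D₀, p0, hD₀⟩ := hG.av K T.F 4 hK inferInstance inferInstance
    ((Fintype.card ι : ℝ)⁻¹ • ∑ i, D i)
    (Submodule.smul_mem _ _ (Submodule.sum_mem _ fun i _ => (hD i).prn))
  have av : ∀ (P : Pl T.F) (r : ℝ), Fintype.card ι * r ≤ ∑ i, D i P →
      r ≤ ((Fintype.card ι : ℝ)⁻¹ • ∑ i, D i) P := fun P r h => by
    rw [Pi.smul_apply, Finset.sum_apply, smul_eq_mul, le_inv_mul_iff₀ k0]; exact h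
  have av0 : ∀ (P : Pl T.F) (r : ℝ), (∀ i, r ≤ D i P) → Fintype.card ι * r ≤ ∑ i, D i P :=
    fun P r h => by simpa using Finset.sum_le_sum fun i (_ : i ∈ Finset.univ) => h i
  refine ⟨D₀, p0, fun P₀ g t => hD₀ P₀ 0 fun P o => av _ _ (av0 _ _ fun i => ?_),
    fun P₀ Q o₀ => hD₀ P₀ _ fun P o => av _ _ ?_⟩
  · have e := ((hA K₀ K h0 hK T P P₀ o).1 t).2
    rw [mul_zero]
    exact (hD i).hor P ⟨e, P₀, g, o⟩ e
  have oq : Ov K₀ P Q := o.trans o₀
  have nt : ¬ Tv T.J P := fun h => oq.not_trv h.down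
  obtain ⟨R, oR⟩ := (tv_or_ov (T.ffF hK) P).resolve_left nt
  have e1 : (ei P R : ℝ) * ei R Q = ei P P₀ * ei P₀ Q := by
    exact_mod_cast (ei_mul oR Q).symm.trans (ei_mul o Q)
  have base : (ei P R : ℝ) * ((cn T.J 2 + dv f) R + 1) - 1 - X' P =
      ei P P₀ * (ei P₀ Q * (cn K₀ 2 Q + 1) - 1 - X P₀) := by
    rw [hf R Q (oR.of_trans oq), ← mul_assoc, e1]
    linarith [hX' P P₀ o]
  have a1 : (1 : ℝ) ≤ ei P P₀ := by exact_mod_cast ei_pos o
  have a2 : (ei P P₀ : ℝ) ≤ 120 := by exact_mod_cast (hA K₀ K h0 hK T P P₀ o).2.1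
  have m1 := min_le_left (1 / 2 : ℝ) (c / (120 * (N + 1)))
  have m2 := min_le_right (1 / 2 : ℝ) (c / (120 * (N + 1)))
  have m0 : 0 < min (1 / 2 : ℝ) (c / (120 * (N + 1))) := lt_min (by norm_num) (by positivity)
  generalize min (1 / 2 : ℝ) (c / (120 * (N + 1))) = c' at m0 m1 m2 ⊢
  have b1 : Br K₀ T.J Q = 0 ∨ Br K₀ T.J Q = 1 := by
    unfold Br; split_ifs <;> simp
  by_cases hb : Br K₀ T.J Q ≠ 0 ∧ ei P₀ Q = 1
  · obtain ⟨u, σ, s1, s2⟩ := (hA K₀ K h0 hK T P P₀ o).2.2 Q o₀ hb.2 hb.1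
    obtain ⟨j, hj⟩ := hW P σ s1 s2 u nt
    have s : ∀ i, (ei P R : ℝ) * ((cn T.J 2 + dv f) R + 1) - 1 - X' P +
        (if i = j then c else 0) ≤ D i P := fun i => by
      split_ifs with h
      · exact h ▸ (hD j).gain P R oR hj
      · rw [add_zero]; exact (hD i).ver P R oR
    have s' := Finset.sum_le_sum fun i (_ : i ∈ Finset.univ) => s i
    rw [Finset.sum_add_distrib, Finset.sum_ite_eq', if_pos (Finset.mem_univ _), base,
      Finset.sum_const, Finset.card_univ, nsmul_eq_mul] at s'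
    refine le_trans ?_ s'
    rw [le_div_iff₀ (by positivity)] at m2
    rw [hb.2, b1.resolve_left hb.1]
    have : Fintype.card ι * (ei P P₀ * c') ≤ c :=
      calc (Fintype.card ι : ℝ) * (ei P P₀ * c') ≤ (N + 1) * (120 * c') := by gcongr
        _ ≤ c := by linarith
    push_cast
    linarith
  · refine av0 _ _ fun i => le_trans ?_ ((hD i).ver P R oR)
    rw [base]
    refine mul_le_mul_of_nonneg_left ?_ (by linarith)
    have a3 := ei_pos o₀
    rcases b1 with b | b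
    · have : (1 : ℝ) ≤ ei P₀ Q := by exact_mod_cast a3
      rw [b]; linarith
    · have : (2 : ℝ) ≤ ei P₀ Q := by
        have : ei P₀ Q ≠ 1 := fun e => hb ⟨by rw [b]; exact one_ne_zero, e⟩
        exact_mod_cast (by omega : 2 ≤ ei P₀ Q)
      rw [b]; nlinarith

end Vale.Agent.P287D.Hd
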