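import Vale.Agent.P287D.Hd.St
import Vale.Agent.P287D.Pb.Abh
import Vale.Agent.P287D.Va.Dsc

/-!
# P287D, hidden covers: the adjoint class of the branch divisor
-/

open Set

noncomputable section

namespace Vale.Agent.P287D.Hd

open Classical in
/-- **EXN** -/
theorem exn (hL : FLD) (hP : PERT) (hT : TEST) : EXN := by
  intro K _ _ hK R A Λ B Γ E l h3 i K₀ _ hn T c hr ⟨s, hs⟩
  obtain ⟨g, g0, hg⟩ := SetLike.not_le_iff_exists.1 hn
  have m := l.mfs i
  have ok := hK.ok_sub K₀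
  have b0 : 0 ≤ mx ({1, g} : Finset K) := mx_nonneg (by simp)
  obtain ⟨η, X, e, pf, lo, up⟩ := hP 3 K hK R A (mx {1, g}) l.smp l.rat.1 l.nef l.rat.2 l.big
    l.nn (mx_mem_CarZ _) b0 (1 / 100) (by norm_num)
  have up' : ∀ P, On 3 (Λ i) P → Hor (fld R) P → X P ≤ -η * mx {1, g} P := fun P a b =>
    up P ((l.zero i P).2 (.inl a)) b
  obtain ⟨D, hD, d1, d2⟩ := hr {P | On 3 (Λ i) P ∧ Hor (fld R) P} X
    (fun P h => ⟨h.1, fun a k => h.2 a (hL.le 4 K hK _ _ m.smp l.smp (l.down i) k)⟩) pf lo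
    fun P h => (up' P h.1 h.2).trans (by nlinarith [show 0 ≤ mx {1, g} P from b0 P])
  obtain ⟨τ, t1, t2, t3⟩ := hT K hK (Λ i) R m.term.smp m.term.big l.smp
    (m.des.trans (l.down i)) h3
  have key : ∀ ε : ℝ, 0 < ε →
      η * τ (mx {1, g}) ≤ ε * τ (pb (algebraMap K₀ K) (mx s)) := fun ε he => by
    obtain ⟨Z, hZ, z⟩ := eff_iff.1 (hs ε he)
    have k := t2 (D + pb (algebraMap K₀ K) Z + ε • pb (algebraMap K₀ K) (mx s) - η • mx {1, g})
      (sub_mem (add_mem (add_mem (Prn_le_Car hD) (Prn_le_Car (ok.prn hZ)))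
        ((Car K).smul_mem _ (ok.car (mx_mem_Car s)))) ((Car K).smul_mem _ (mx_mem_Car _)))
      fun P a b => by
        simp only [Pi.add_apply, Pi.sub_apply, Pi.smul_apply, smul_eq_mul]
        rcases ok P with q | ⟨Q, q⟩
        · have w : mx {1, g} P = 0 := by
            have o : P.ord g = 0 := q.ord ⟨g, g0⟩
            simp [mx_one_pair, dv, o]
          rw [q.pb, q.pb, w]
          simpa using d1 P ⟨a, b⟩ q
        · have u := d2 P Q q
          have v := mul_nonneg (Int.cast_nonneg (R := ℝ) q.e_pos.le) (z Q)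
          have w := up' P a b
          rw [q.pb, q.pb]
          simp only [ei, Pi.add_apply, Pi.smul_apply, smul_eq_mul] at u v
          nlinarith
    rw [map_sub, map_add, map_add, map_smul, map_smul, t1 D hD, t1 _ (ok.prn hZ)] at k
    simpa using k
  have p := mul_pos e (t3 g hg)
  have q := key (η * τ (mx {1, g}) / (|τ (pb (algebraMap K₀ K) (mx s))| + 1)) (by positivity)
  rw [div_mul_eq_mul_div, le_div_iff₀ (by positivity)] at q
  nlinarith [le_abs_self (τ (pb (algebraMap K₀ K) (mx s)))]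

end Vale.Agent.P287D.Hd
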