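import Vale.Agent.P287D.Hd.Ln
import Vale.Agent.P287D.Ru.St
import Vale.Agent.P287D.D2.Rul
import Vale.Agent.P287D.Iso.Can

/-!
# P287D, hidden covers: the base form (row `FB`)
-/

open Set
open scoped IntermediateField

noncomputable section

namespace Vale.Agent.P287D.Hd

variable {J L : Type} [Field J] [Algebra ℂ J] [Field L] [Algebra ℂ L] [Algebra J L]
  [IsScalarTower ℂ J L]

variable (J L) in
/-- the image of `J` -/
abbrev Im : IntermediateField ℂ L := (IsScalarTower.toAlgHom ℂ J L).fieldRange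

variable (J L) in
/-- the isomorphism onto the image -/
def toIm : J →+* Im J L := (algebraMap J L).codRestrict (Im J L) fun a => ⟨a, rfl⟩

theorem coe_toIm (a : J) : algebraMap (Im J L) L (toIm J L a) = algebraMap J L a := rfl

variable (J L) in
theorem semi_toIm : Semi (toIm J L) :=
  have k : ∀ c, algebraMap ℂ (Im J L) c = toIm J L (algebraMap ℂ J c) := fun c =>
    Subtype.ext (IsScalarTower.algebraMap_apply ℂ J L c)
  ⟨fun ⟨_, a, e⟩ => ⟨a, Subtype.ext e⟩, fun c => ⟨c, k c⟩, fun c => ⟨c, (k c).symm⟩⟩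

theorem Ru.ruled {z : L} (h : Ru J z) : Ruled (Im J L) := by
  refine ⟨z, h.1.ringHom_of_comp_eq (toIm J L) (RingHom.id L) (semi_toIm J L).sur
    Function.injective_id (RingHom.ext coe_toIm), eq_top_iff.2 fun x _ => ?_⟩
  have : x ∈ J⟮z⟯ := by rw [h.2]; trivial
  induction this using IntermediateField.adjoin_induction with
  | mem x hx => exact IntermediateField.subset_adjoin _ _ hx
  | algebraMap a => exact coe_toIm (L := L) a ▸ IntermediateField.algebraMap_mem _ _
  | add x y _ _ a b => exact add_mem (a trivial) (b trivial)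
  | inv x _ a => exact inv_mem (a trivial)
  | mul x y _ _ a b => exact mul_mem (a trivial) (b trivial)

theorem fb_of (r : RUL) : FB := by
  intro J L _ _ _ _ _ _ n hJ z rz Y p y
  have h := semi_toIm J L
  have d : dsc (n + 1) (cn L (n + 1) - Y) = Y := sub_sub_cancel _ _
  have t : ∀ P : Pl L, Hor (Im J L) P → Tv J P := fun P k f => k _ ⟨f, rfl⟩
  obtain ⟨Z, z1, z2⟩ := r n L (Im J L) (cn L (n + 1) - Y) 0 0 ⟨rz.ff hJ, h.ff hJ, rz.ruled.cld,
    rz.ruled.con, .zero, by simpa [pb_zero] using neg_mem p, fun P k => d.symm ▸ (y P (t P k)).2,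
    fun P k => d.symm ▸ (y P (t P k)).1⟩
  refine ⟨pb h.inv Z, h.prn.1 ?_, fun P Q o => ?_⟩
  · rw [pb_add, h.pb_inv]
    convert add_mem z1 (h.cn_prn n) using 1
    abel
  · have l : Lies (inc (Im J L)) P (h.pl Q) := fun f => by
      obtain ⟨a, rfl⟩ := h.sur f
      exact h.mem_pl.trans (o a)
    have e : ei P Q = P.ord (inc _ (h.pl Q).t) := by
      have := l.ord (toIm J L Q.t)
      rwa [h.ord_pl, Pl.ord_t, mul_one] at this
    have := z2 P _ l
    rw [d, ← e] at this
    rw [← h.pb_pl (pb h.inv Z), h.pb_inv]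
    linarith

end Vale.Agent.P287D.Hd
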