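import Vale.Agent.P287D.Hd.St
import Vale.Agent.P287D.Pr.Ls
import Vale.Agent.P287D.Va.Fld
import Vale.Agent.P287D.Rl.Rel
import Vale.Agent.P287D.Fs.Mod

/-!
# P287D: rational members of rational classes, the perturbed pluricanonical form
-/

open Set

noncomputable section

namespace Vale.Agent.P287D.Hd

variable {n : ℕ} {K : Type} [Field K] [Algebra ℂ K] {β W Γ : BD K}

/-- a real member of a rational class is close to a rational member -/
theorem rat_near (hK : FF K (n + 1)) (hβ : CarQ β) (r : Rep β W) (hΓ : Γ ∈ Car K) {a a' : ℝ}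
    (a0 : 0 ≤ a') (a1 : a' ≤ 1) (aa : a' < a) (h : ∀ P, a ≤ dsc (n + 1) (Γ + W) P + 1) :
    ∃ W', Rep β W' ∧ (∀ P, ∃ q : ℚ, W' P = q) ∧ (∀ P, W P = 0 → W' P = 0) ∧
      ∀ P, a' ≤ dsc (n + 1) (Γ + W') P + 1 := by
  classical
  obtain ⟨S, c, -, e⟩ := mem_Prn.1 r.2
  obtain ⟨s, κ, T, g, l, -, sκ, sB⟩ := exists_ls hK finite_empty
    (B := insert Γ (insert β (dv '' (S : Set K)))) (((S.finite_toSet.image _).insert _).insert _)
    (forall_mem_insert.2 ⟨hΓ, forall_mem_insert.2 ⟨hβ.car, forall_mem_image.2 fun f _ =>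
      dv_mem_Car f⟩⟩)
  obtain ⟨ε, e0, e1⟩ := P277Z.Gr.exists_pos_le_of_finite_aux
    (fun P : T => if W P = 0 then a - a' else min (a - a') (W P)) fun P => by
      split_ifs with k
      exacts [sub_pos.2 aa, lt_min (sub_pos.2 aa) ((r.1 P).lt_of_ne' k)]
  obtain ⟨π, p1, p2⟩ := P277Z.Gr.exists_rat_lin (fun P : T => W P) e0
  have k : ∀ (d : K → ℝ) P, (∑ f ∈ S, d f • dv f) P = ∑ f ∈ S, (P.ord f : ℚ) • d f := fun d P => by
    rw [Finset.sum_apply]
    exact Finset.sum_congr rfl fun f _ => by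
      rw [Pi.smul_apply, dv_apply, Rat.smul_def, Rat.cast_intCast, smul_eq_mul, mul_comm]
  set W' := β + ∑ f ∈ S, (π (c f) : ℝ) • dv f with hW
  have v : ∀ P, W' P = π (W P) := fun P => by
    obtain ⟨q, hq⟩ := hβ.rat P
    have k1 : π (q : ℝ) = q := by
      rw [show (q : ℝ) = q • (1 : ℝ) by simp [Rat.smul_def], map_smul, p1, smul_eq_mul, mul_one]
    rw [← add_sub_cancel β W, e, hW, Pi.add_apply, Pi.add_apply, k, k, hq, map_add, k1, map_sum,
      Rat.cast_add, Rat.cast_sum]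
    exact congrArg _ (Finset.sum_congr rfl fun f _ => by
      rw [map_smul, smul_eq_mul, Rat.cast_mul, Rat.smul_def])
  have z : ∀ P, W P = 0 → W' P = 0 := fun P hP => by rw [v, hP, map_zero, Rat.cast_zero]
  have sW : Sup n (mx s) T W' := (sB β (by simp)).add (Sup.span l.smp
    (B := dv '' (S : Set K)) (fun b hb => sB b (by simp [hb]))
    (sum_mem fun f hf => Submodule.smul_mem _ _ (Submodule.subset_span ⟨f, hf, rfl⟩)))
  refine ⟨W', ⟨l.hart _ sW.1 fun P hP => ?_, ?_⟩, fun P => ⟨_, v P⟩, z, fun Q =>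
    l.ge (sκ.sub ((sB Γ (by simp)).add sW)) a0 a1 fun P hP _ => ?_⟩
  · by_cases t : P ∈ T
    · by_cases w : W P = 0
      · exact (z P w).ge
      · have k1 := e1 ⟨P, t⟩
        have k2 := (abs_lt.1 (p2 ⟨P, t⟩)).1
        rw [if_neg w] at k1
        rw [v]
        linarith [k1.trans (min_le_right _ _)]
    · exact (sW.2 P hP t).ge
  · rw [hW, add_sub_cancel_left]
    exact sum_mem fun f _ => Submodule.smul_mem _ _ (dv_mem_Prn f)
  · have k1 : ε ≤ a - a' := (e1 ⟨P, hP⟩).trans (by split_ifs; exacts [le_rfl, min_le_left _ _])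
    have k2 := (abs_lt.1 (p2 ⟨P, hP⟩)).2
    have k3 := h P
    simp only [dsc, Pi.sub_apply, Pi.add_apply, v] at k3 ⊢
    linarith

/-- a rational member of a rational semiample class which vanishes at the horizontal places -/
theorem exists_vert {R : BD K} (h : Smp R) (q : CarQ R) : ∃ G, Rep R G ∧ (∀ P, ∃ q : ℚ, G P = q) ∧
    ∀ P, Hor (fld R) P → G P = 0 := by
  obtain ⟨m, u, m0, ⟨f, hf, f0⟩, e⟩ := Rl.smp_carQ h q
  have m1 : (0 : ℝ) < m := by exact_mod_cast m0
  have e' : R = (m : ℝ)⁻¹ • mx u := by rw [← e, inv_smul_smul₀ m1.ne']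
  refine ⟨(m : ℝ)⁻¹ • (dv f + mx u), e' ▸ ((sec_of_mem hf).rep f0).smul (inv_pos.2 m1).le,
    fun P => ⟨(m : ℚ)⁻¹ * (P.ord f + P.mz u), by simp [dv, mx]⟩, fun P hP => ?_⟩
  obtain ⟨g, hg, g0, k⟩ := P.exists_mz ⟨f, hf, f0⟩
  have t : ∀ a ∈ u, ∀ b ∈ u, a / b ∈ P.ring := fun a ha b hb =>
    hP _ (fld_smul m1 R ▸ e ▸ (sec_of_mem ha).div_mem (sec_of_mem hb))
  have o := P297Z.Pl.ord_unit P.toPlace (t f hf g hg) (inv_div f g ▸ t g hg f hf)
  rw [P297Z.Pl.ord_div _ f0 g0] at o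
  rw [Pi.smul_apply, Pi.add_apply, dv_apply, mx_apply, k, ← Int.cast_add, ← sub_eq_add_neg, o,
    Int.cast_zero, smul_zero]

/-- **PERT** -/
theorem pert : PERT := by
  classical
  intro n K _ _ hK R A b sR qR sA qA bA h0 hb b0 ε hε
  obtain ⟨η', e', E, rE⟩ := bA.exists_eff (CarZ.car hb)
  set ε' := min ε 1 with hε'
  have ε0 : 0 < ε' := lt_min hε one_pos
  have ε1 : ε' ≤ 1 := min_le_right _ _
  have cE := rE.car (sub_mem sA.car (Submodule.smul_mem _ _ (CarZ.car hb)))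
  obtain ⟨s, κ, T, Y, T', h, G, l, hT, dj, -, sκ, sB, rG, sG, gG⟩ := Pr.exists_ber hK finite_empty
    (B := {R - A, b, E}) (toFinite _) (by
      rintro _ (rfl | rfl | rfl)
      exacts [sub_mem sR.car sA.car, CarZ.car hb, cE]) sA (half_pos ε0)
  obtain ⟨C, hC⟩ := (T.finite_toSet.image fun P => η' * b P + E P).bddAbove
  have C0 : 0 < max C 1 := lt_max_of_lt_right one_pos
  obtain ⟨η, η0, η1⟩ := exists_rat_btwn
    (mul_pos e' (lt_min one_pos (div_pos (half_pos ε0) C0)))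
  set δ := (η : ℝ) / η' with hδ
  have δ0 : 0 < δ := div_pos η0 e'
  have δ1 : δ < min 1 (ε' / 2 / max C 1) := (div_lt_iff₀' e').2 η1
  have δ2 : δ ≤ 1 := (δ1.trans_le (min_le_left _ _)).le
  have eη : (η : ℝ) = δ * η' := (div_mul_cancel₀ _ e'.ne').symm
  have rW : Rep (A - (η : ℝ) • b) (δ • E + (1 - δ) • G) := by
    convert (rE.smul δ0.le).add (rG.smul (sub_nonneg.2 δ2)) using 1
    rw [eη, mul_smul, smul_sub, sub_smul, one_smul]
    abel
  have up : ∀ {β}, Sup n (mx s) T β → Sup n (mx s) T' β := fun k =>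
    k.mono fun P hP => (hT P).2 (.inl hP)
  obtain ⟨W, rW', qW, -, kW⟩ := rat_near hK (qA.sub ((CarZ.carQ hb).qsmul η)) rW
    (Γ := R - A + (η : ℝ) • b) (add_mem (sub_mem sR.car sA.car)
      (Submodule.smul_mem _ _ (CarZ.car hb))) (a := 1 - ε' / 2) (a' := 1 - ε') (by linarith)
    (by linarith) (by linarith) fun Q => l.ge ((up sκ).sub (((up (sB _ (by simp))).add
      ((up (sB b (by simp))).smul _)).add (((up (sB E (by simp))).smul _).add
        ((sG.mono fun P hP => (hT P).2 (.inr hP)).smul _)))) (by linarith) (by linarith)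
      fun P hP _ => by
        have k0 := h0 P
        have o := l.on P hP
        rcases (hT P).1 hP with t | t
        · have k1 := sG.2 P o (Finset.disjoint_left.1 dj t)
          have k2 : δ * (η' * b P + E P) ≤ ε' / 2 :=
            (mul_le_mul_of_nonneg_left ((hC ⟨P, t, rfl⟩).trans (le_max_left C 1)) δ0.le).trans
              ((le_div_iff₀ C0).1 (δ1.trans_le (min_le_right _ _)).le)
          simp only [dsc, Pi.sub_apply, Pi.add_apply, Pi.smul_apply, smul_eq_mul, Pi.zero_apply,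
            k1, eη] at k0 ⊢
          linarith
        · have t' := Finset.disjoint_right.1 dj t
          have k1 := (sB b (by simp)).2 P o t'
          have k2 := (sB E (by simp)).2 P o t'
          have k3 := gG P t
          have k4 : δ * G P ≥ 0 := mul_nonneg δ0.le (rG.1 P)
          simp only [dsc, Pi.sub_apply, Pi.add_apply, Pi.smul_apply, smul_eq_mul, Pi.zero_apply,
            k1, k2] at k0 ⊢
          linarith
  obtain ⟨V, rV, qV, zV⟩ := exists_vert sR qR
  refine ⟨η, dsc (n + 1) (R - A + (η : ℝ) • b + W) + V, η0, ?_, fun P => ?_, fun P p q => ?_⟩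
  · have e : dsc (n + 1) (R - A + (η : ℝ) • b + W) + V - cn K (n + 1) =
        (V - R) - (W - (A - (η : ℝ) • b)) := by rw [dsc]; abel
    refine Fs.prn_rat (e ▸ sub_mem rV.2 rW'.2) fun P => ?_
    obtain ⟨q1, h1⟩ := qV P
    obtain ⟨q2, h2⟩ := qR.rat P
    obtain ⟨q3, h3⟩ := qW P
    obtain ⟨q4, h4⟩ := (qA.sub ((CarZ.carQ hb).qsmul η)).rat P
    exact ⟨q1 - q2 - (q3 - q4), by
      rw [e, Pi.sub_apply, Pi.sub_apply, Pi.sub_apply, h1, h2, h3, h4]; push_cast; rfl⟩
  · have k1 := kW P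
    have k2 : (0 : ℝ) ≤ V P := rV.1 P
    rw [Pi.add_apply]
    linarith [min_le_left ε 1]
  · have k1 : (0 : ℝ) ≤ W P := rW'.1 P
    simp only [dsc, Pi.sub_apply, Pi.add_apply, Pi.smul_apply, smul_eq_mul, zV P q] at p ⊢
    linarith

end Vale.Agent.P287D.Hd
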