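import Vale.Agent.P287D.Hd.Cm

/-!
# P287D, hidden covers: the conic bundle of degree five
-/

set_option linter.unusedSectionVars false

open Set Equiv
open scoped IntermediateField
open Vale.Agent.P297Z

noncomputable section

namespace Vale.Agent.P287D.Hd

namespace Q4

/-- the permutations of five points -/
abbrev S5 := Perm (Fin 5)

/-- the Klein group -/
def V4 : List S5 := [1, swap 0 1 * swap 2 3, swap 0 2 * swap 1 3, swap 0 3 * swap 1 2]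

/-- the permutations of three points -/
def S3 : List S5 := [1, swap 1 2, swap 1 3, swap 1 2 * swap 1 3, swap 1 3 * swap 1 2,
  swap 1 2 * swap 1 3 * swap 1 2]

theorem split4 : ∀ γ : S5, γ 4 = 4 → ∃ a ∈ V4, ∃ b ∈ S3, γ = a * b := by decide +kernel

section cr

variable {F : Type} [Field F] {y : S5 → F}

theorem lt (h : CR y) (ρ : S5) : CR fun γ => y (ρ * γ) :=
  ⟨fun γ => by simpa only [mul_assoc] using h.inv (ρ * γ),
    fun γ => by simpa only [mul_assoc] using h.add (ρ * γ),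
    fun γ => by simpa only [mul_assoc] using h.sym (ρ * γ),
    fun γ => by simpa only [mul_assoc] using h.mul (ρ * γ)⟩

theorem ne0 (h : CR y) (ρ : S5) : y ρ ≠ 0 := right_ne_zero_of_mul_eq_one (h.inv ρ)

theorem inv' (h : CR y) (ρ : S5) : y (ρ * swap 1 2) = (y ρ)⁻¹ := eq_inv_of_mul_eq_one_left (h.inv ρ)

theorem add' (h : CR y) (ρ : S5) : y (ρ * swap 1 3) = 1 - y ρ := eq_sub_of_add_eq (h.add ρ)

theorem ne1 (h : CR y) (ρ : S5) : 1 - y ρ ≠ 0 := add' h ρ ▸ ne0 h _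

theorem kl (h : CR y) (ρ : S5) : ∀ a ∈ V4, y (ρ * a) = y ρ := by
  have a : (swap 0 2 * swap 1 3 : S5) = swap 1 2 * (swap 0 1 * swap 2 3) * swap 1 2 := by decide
  have b : (swap 0 3 * swap 1 2 : S5) = swap 1 3 * (swap 0 1 * swap 2 3) * swap 1 3 := by decide
  simp only [V4, List.forall_mem_cons]
  refine ⟨by rw [mul_one], h.sym ρ, ?_, ?_, by simp⟩
  · rw [a, ← mul_assoc, ← mul_assoc, inv' h, h.sym, inv' h, inv_inv]
  · rw [b, ← mul_assoc, ← mul_assoc, add' h, h.sym, add' h, sub_sub_cancel]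

/-- a subfield which contains one cross ratio of four points contains all of them -/
theorem mem4 (h : CR y) {M : Subfield F} {ρ ρ' : S5} (e : ρ' 4 = ρ 4) (m : y ρ ∈ M) : y ρ' ∈ M := by
  obtain ⟨a, ha, b, hb, k⟩ := split4 (ρ⁻¹ * ρ') (by simp [e])
  rw [← mul_inv_cancel_left ρ ρ', k, ← mul_assoc]
  rw [← kl h ρ a ha] at m
  have i : ∀ {γ}, y γ ∈ M → y (γ * swap 1 2) ∈ M := fun m => inv' h _ ▸ inv_mem m
  have j : ∀ {γ}, y γ ∈ M → y (γ * swap 1 3) ∈ M := fun m => add' h _ ▸ sub_mem (one_mem _) m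
  revert b
  simp only [S3, List.forall_mem_cons, ← mul_assoc, mul_one]
  exact ⟨fun _ => m, fun _ => i m, fun _ => j m, fun _ => j (i m), fun _ => i (j m),
    fun _ => i (j (i m)), by simp⟩

theorem mem5 (h : CR y) {M : Subfield F} (m : y 1 ∈ M) (m' : y (swap 1 4) ∈ M) (ρ : S5) :
    y ρ ∈ M := by
  have k : ∀ i : Fin 5, i = 4 ∨ i = 1 ∨ ∃ γ : S5, γ 4 = i ∧ γ 3 = 4 ∧ γ 0 = 1 := by
    intro i
    fin_cases i
    · exact .inr (.inr ⟨swap 0 1 * swap 1 4 * swap 1 3, by decide⟩)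
    · simp
    · exact .inr (.inr ⟨swap 0 1 * swap 2 4 * swap 2 3, by decide⟩)
    · exact .inr (.inr ⟨swap 0 1 * swap 3 4, by decide⟩)
    · simp
  rcases k (ρ 4) with e | e | ⟨γ, a, b, c⟩
  · exact mem4 h (ρ := 1) e m
  · exact mem4 h (ρ := swap 1 4) (e.trans (by decide)) m'
  · refine mem4 h a.symm (h.mul γ ▸ mul_mem (mem4 h (ρ := 1) ?_ m) (mem4 h (ρ := swap 1 4) ?_ m'))
    · simpa using b
    · simpa using c

theorem gen {J : Type} [Field J] [Algebra J F] (h : CR y)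
    (g : IntermediateField.adjoin J (range y) = ⊤) (ρ : S5) : J⟮y ρ, y (ρ * swap 1 4)⟯ = ⊤ := by
  refine eq_top_iff.2 (g.ge.trans
    (IntermediateField.adjoin_le_iff.2 (range_subset_iff.2 fun γ => ?_)))
  rw [← mul_inv_cancel_left ρ γ]
  exact mem5 (lt h ρ) (M := J⟮y ρ, y (ρ * swap 1 4)⟯.toSubfield)
    (IntermediateField.subset_adjoin _ _ (.inl (by rw [mul_one])))
    (IntermediateField.subset_adjoin _ _ (.inr rfl)) _

/-- the fifth point and its reflection -/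
theorem refl3 (h : CR y) : y (swap 0 3 * swap 1 2 * swap 1 4) * y (swap 1 4) = y 1 := by
  have a := h.mul (swap 0 1 * swap 2 3)
  have b := h.sym 1
  have c := h.sym (swap 1 4)
  have d := kl h (swap 0 3 * swap 1 2 * swap 1 4) (swap 0 2 * swap 1 3) (by simp [V4])
  rw [one_mul] at b
  rw [← b, a, ← c, ← d]
  exact congrArg₂ (fun u v => y u * y v) (by decide) (by decide)

theorem sw23 (h : CR y) (ρ : S5) : y (ρ * swap 2 3) = (1 - (y ρ)⁻¹)⁻¹ := by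
  rw [show (swap 2 3 : S5) = swap 1 2 * swap 1 3 * swap 1 2 by decide, ← mul_assoc, ← mul_assoc,
    inv' h, add' h, inv' h]

end cr

section pl

variable {J F : Type} [Field J] [Algebra ℂ J] [Field F] [Algebra ℂ F] [Algebra J F]
  [IsScalarTower ℂ J F] {y : S5 → F} {P P' : Pl F} {p : S5}

theorem ord23 (h : CR y) (P : Pl F) (ρ : S5) :
    (0 < P.ord (y ρ) → P.ord (y (ρ * swap 2 3)) = P.ord (y ρ)) ∧
      (P.ord (y ρ) ≤ 0 → P.ord (y (ρ * swap 2 3)) ≤ 0) := by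
  have n := inv_ne_zero (ne0 h ρ)
  rw [sw23 h, Pl.ord_inv]
  refine ⟨fun a => ?_, fun a => neg_nonpos.2 (Pl.ord_nonneg_of_mem _ (sub_mem (one_mem _)
    ((Pl.ord_nonneg_iff _ n).1 (by rw [Pl.ord_inv]; omega))))⟩
  rw [sub_eq_neg_add, Pl.ord_add_eq_of_lt _ (neg_ne_zero.2 n) one_ne_zero (by simpa using a)]
  simp

theorem ord1 (h : CR y) (P : Pl F) (ρ : S5) :
    P.ord (y (ρ * swap 2 3)) = 1 ↔ P.ord (y ρ) = 1 := by
  have := ord23 h P ρ
  omega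

theorem two' (h : CR y) (hp : p = swap 0 3 * swap 1 2 ∨ p = swap 0 3 * swap 1 2 * swap 2 3)
    (e : ∀ γ, P'.ord (y (p * γ)) = P.ord (y γ)) (o : P.ord (y 1) = 1) :
    P'.ord (y 1) = 1 ∧ P ≠ P' := by
  have k := kl h 1 (swap 0 3 * swap 1 2) (by simp [V4])
  have a := e 1
  have b := e (swap 1 4)
  have c := congrArg P.ord (refl3 h)
  rw [Pl.ord_mul _ (ne0 h _) (ne0 h _), o] at c
  rw [one_mul] at k
  rw [mul_one, o] at a
  rcases hp with rfl | rfl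
  · refine ⟨k ▸ a, ?_⟩
    rintro rfl
    omega
  · refine ⟨k ▸ (ord1 h _ _).1 a, ?_⟩
    rintro rfl
    have d := ord23 h P (swap 0 3 * swap 1 2 * swap 1 4)
    rw [show (swap 0 3 * swap 1 2 * swap 1 4 * swap 2 3 : S5) =
      swap 0 3 * swap 1 2 * swap 2 3 * swap 1 4 by decide] at d
    omega

theorem cls2 : ∀ p : S5, p 4 = 4 → (p 0 = 2 ∧ p 1 = 3) ∨ (p 0 = 3 ∧ p 1 = 2) →
    ∃ r ∈ [(1 : S5), swap 0 1 * swap 2 3 * swap 2 3], ∃ q, (q = swap 0 3 * swap 1 2 ∨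
      q = swap 0 3 * swap 1 2 * swap 2 3) ∧ p * r = r * q := by
  simp only [or_and_right, exists_or, exists_eq_left]
  decide +kernel

/-- the two components of the singular fibre are exchanged -/
theorem two (h : CR y) (p4 : p 4 = 4) (hp : (p 0 = 2 ∧ p 1 = 3) ∨ (p 0 = 3 ∧ p 1 = 2))
    (e : ∀ γ, P'.ord (y (p * γ)) = P.ord (y γ)) (o : P.ord (y 1) = 1) :
    P'.ord (y 1) = 1 ∧ P ≠ P' := by
  obtain ⟨r, hr, q, hq, k⟩ := cls2 p p4 hp
  have i : ∀ R : Pl F, R.ord (y (r * 1)) = 1 ↔ R.ord (y 1) = 1 := fun R => by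
    rw [mul_one]
    rcases List.mem_cons.1 hr with rfl | hr
    · rfl
    · rw [List.mem_singleton.1 hr, ord1 h, ← h.sym 1, one_mul]
  have := two' (P := P) (P' := P') (lt h r) hq
    (fun γ => by rw [← mul_assoc, ← k, mul_assoc, e]) ((i P).2 o)
  exact ⟨(i P').1 this.1, this.2⟩

theorem cls4 : ∀ p : S5, p 4 = 4 → p ≠ 1 → ∃ r ∈ S3, r 4 = 4 ∧
    (p * r = r * (swap 0 3 * swap 1 2) ∨ ∃ a ∈ V4, p * r = r * a * swap 1 2 ∨
      p * r = r * a * swap 1 2 * swap 1 3) := by decide +kernel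

/-- an element of the inertia group which fixes the last point gives a gain -/
theorem gain4 (gr : GRS) (h : CR y) {σ : F →+* F}
    (hσ : ∀ f ∈ P.ring, σ f ∈ P.ring ∧ P.rd (σ f) = P.rd f) (e : ∀ γ, σ (y γ) = y (p * γ))
    (p4 : p 4 = 4) (p1 : p ≠ 1) : ∃ ρ, ρ 4 = 4 ∧ (¬ Med J P (y ρ) ∨ Irr J⟮y ρ⟯ P) := by
  obtain ⟨r, -, r4, k⟩ := cls4 p p4 p1
  refine ⟨r, r4, or_iff_not_imp_left.2 fun m => ?_⟩
  rw [not_not] at m
  have u := m.un
  have u0 := u.rd_ne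
  have f := (hσ _ u.mem).2
  rw [e] at f
  rcases k with k | ⟨a, ha, k | k⟩
  · have c := refl3 (lt h r)
    have s : σ (y (r * swap 1 4)) = y (r * (swap 0 3 * swap 1 2 * swap 1 4)) := by
      rw [e, ← mul_assoc, k, mul_assoc]
    simp only [mul_one] at c
    rw [← s] at c
    obtain ⟨a, ha⟩ : ∃ a, a ^ 2 * P.rd (y r) = 1 := by
      rcases P.ring.mem_or_inv_mem (y (r * swap 1 4)) with t | t
      · refine ⟨(P.rd (y (r * swap 1 4)))⁻¹, ?_⟩
        rw [← c, rd_mul (hσ _ t).1 t, (hσ _ t).2] at u0 ⊢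
        have := left_ne_zero_of_mul u0
        field_simp
      · refine ⟨P.rd (y (r * swap 1 4))⁻¹, ?_⟩
        have d := rd_mul (hσ _ t).1 t
        rw [(hσ _ t).2, map_inv₀, ← mul_inv, c, u.rd_inv] at d
        rw [sq, ← d, inv_mul_cancel₀ u0]
    have g := gr J F P _ m
    refine ⟨a, alg_of_pow two_pos ?_, g ▸ nonsq m.2 (one_mem _) one_ne_zero ha⟩
    rw [g, eq_inv_of_mul_eq_one_left ha]
    exact inv_mem (Subfield.subset_closure (.inl rfl))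
  · rw [k, inv' h, kl h r a ha, u.rd_inv] at f
    refine (m.2 (alg_of_pow two_pos ?_)).elim
    rw [sq]
    nth_rw 1 [← f]
    rw [inv_mul_cancel₀ u0]
    exact one_mem _
  · have b := congrArg P.rd (h.add (r * a * swap 1 2))
    rw [rd_add (k ▸ e r ▸ (hσ _ u.mem).1) (by rw [inv' h, kl h r a ha]; exact u.inv.mem), ← k, f,
      inv' h, kl h r a ha, u.rd_inv, rd_one] at b
    refine (m.2 (alg_of_pow three_pos ?_)).elim
    have c : P.rd (y r) ^ 3 = -1 := by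
      field_simp at b
      linear_combination (P.rd (y r) + 1) * b
    rw [c]
    exact neg_mem (one_mem _)

end pl

/-- the marked points of the conic bundle -/
theorem mk4 {K₀ K : Type} [Field K₀] [Algebra ℂ K₀] [Field K] [Algebra ℂ K] [Algebra K₀ K]
    {T : Tow K₀ K} {O G : Set (Pl K)} {X : BD K} {X' : BD T.F} (ga : GAL) (k : T.Dat O G X X')
    {y : S5 → T.F} {π : (T.F ≃ₐ[K] T.F) →* S5} (h : T.Pts y π) (h4 : ∀ σ, π σ 4 = 4) {ρ : S5}
    (r4 : ρ 4 = 4) {σ : T.F ≃ₐ[K] T.F}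
    (s : (π σ (ρ 0) = ρ 2 ∧ π σ (ρ 1) = ρ 3) ∨ (π σ (ρ 0) = ρ 3 ∧ π σ (ρ 1) = ρ 2)) :
    Mk T.J (T.Gu G) X' (y ρ) := by
  rintro P ⟨-, Q, g, o⟩ t e
  obtain ⟨P', a, b, c⟩ := ga.act K T.F σ P
  have t' : Tv T.J P' := fun x => by
    obtain ⟨x', hx⟩ := T.conj σ⁻¹ x
    have := (a _).2 (t x')
    rw [← hx] at this
    simpa using this
  obtain ⟨u, v⟩ := two (P := P) (P' := P') (p := ρ⁻¹ * π σ * ρ) (lt h.cr ρ)
    (by simp [r4, h4, symm_apply_eq]) (by simpa [symm_apply_eq] using s)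
    (fun γ => by rw [← b, h.eqv]; simp only [mul_assoc, mul_inv_cancel_left]) (by rwa [mul_one])
  rw [mul_one] at u
  refine ⟨P, P', v, t, t', e, u, ?_, k.val o t ▸ k.good _ g⟩
  rw [k.val o t, k.val (c Q o) t']
  norm_num

end Q4

open Q4 in
/-- **R4** -/
theorem r4 (c3 : C3) (ds : DSC) (ab : ABH) (ga : GAL) (gr : GRS) : R4 := by
  obtain ⟨c, hc, c3⟩ := c3
  obtain ⟨c', hc', ds⟩ := ds c hc 120
  refine ⟨c', hc', fun K₀ K _ _ _ _ _ _ h0 hK T O ⟨y, π, h, h4, h5⟩ => ?_⟩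
  have : Nonempty {ρ : S5 // ρ 4 = 4} := ⟨⟨1, rfl⟩⟩
  refine ds K₀ K h0 hK T O {ρ : S5 // ρ 4 = 4}
    (fun ρ P => ¬ Med T.J P (y ρ) ∨ E1 T.J P ∧ Irr T.J⟮y ρ⟯ P)
    ((Fintype.card_subtype_le _).trans (by simp [Fintype.card_perm, Nat.factorial]))
    (fun P σ a b e _ => ?_) fun G X X' X₀ a b d e f g ρ => ?_
  · obtain ⟨ρ, r, k⟩ := gain4 (J := T.J) gr h.cr (σ := σ) b (h.eqv σ) (h4 σ)
      fun z => a (h.inj (z.trans (map_one π).symm))
    exact ⟨⟨ρ, r⟩, k.imp_right fun k => ⟨e, k⟩⟩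
  · have k := ab.dat h0 hK T a b d e f
    have m : ∀ γ : S5, γ 4 = 4 → Mk T.J (T.Gu G) X' (y γ) := fun γ r =>
      let ⟨_, s⟩ := (h5 γ r).2
      mk4 ga k h h4 r s
    exact c3 T.J T.F _ X' _ _ X₀ (k.inp (h5 ρ ρ.2).1 (gen h.cr h.gen ρ)) g (m ρ ρ.2)
      (inv' h.cr ρ ▸ m _ ρ.2) (add' h.cr ρ ▸ m _ ρ.2)

end Vale.Agent.P287D.Hd
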