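import Vale.Agent.P287D.Hd.R4

/-!
# P287D, hidden covers: the quintic del Pezzo surface
-/

set_option linter.unusedSectionVars false

open Set Equiv
open scoped IntermediateField

noncomputable section

namespace Vale.Agent.P287D.Hd

namespace Q4

variable {J F : Type} [Field J] [Algebra ℂ J] [Field F] [Algebra ℂ F] [Algebra J F]
  [IsScalarTower ℂ J F] {y : S5 → F} {P : Pl F} {p : S5}

/-- the rotation -/
def rot : S5 := swap 0 4 * swap 0 3 * swap 0 2 * swap 0 1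

theorem cls5 : ∀ p : S5, p ≠ 1 → (∃ k, p k = k) ∨ (p * p ≠ 1 ∧ ∃ k, (p * p) k = k) ∨
    ∃ r, p * r = r * rot := by decide +kernel

open Polynomial in
theorem gold {E : Type} [Field E] {k : Subfield E} {u : E} (h : u + u * u = 1) :
    IsAlgebraic k u :=
  ⟨X ^ 2 + X - 1, fun e => by simpa using congrArg (eval 0) e, by
    simp only [map_sub, map_add, map_pow, aeval_X, map_one]
    linear_combination h⟩

theorem gainf (gr : GRS) (h : CR y) {σ : F →+* F}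
    (hσ : ∀ f ∈ P.ring, σ f ∈ P.ring ∧ P.rd (σ f) = P.rd f) (e : ∀ γ, σ (y γ) = y (p * γ))
    {k : Fin 5} (pk : p k = k) (p1 : p ≠ 1) : ∃ ρ, ¬ Med J P (y ρ) ∨ Irr J⟮y ρ⟯ P := by
  obtain ⟨ρ, -, a⟩ := gain4 (J := J) (p := (swap 4 k)⁻¹ * p * swap 4 k) gr (lt h (swap 4 k)) hσ
    (fun γ => by rw [e]; simp only [mul_assoc, mul_inv_cancel_left]) (by simp [pk])
    (fun z => p1 (by rwa [mul_assoc, inv_mul_eq_one, eq_comm, mul_eq_right] at z))
  exact ⟨_, a⟩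

theorem gain5 (gr : GRS) (h : CR y) {σ : F →+* F}
    (hσ : ∀ f ∈ P.ring, σ f ∈ P.ring ∧ P.rd (σ f) = P.rd f) (e : ∀ γ, σ (y γ) = y (p * γ))
    (p1 : p ≠ 1) : ∃ ρ, ¬ Med J P (y ρ) ∨ Irr J⟮y ρ⟯ P := by
  rcases cls5 p p1 with ⟨k, a⟩ | ⟨a, k, b⟩ | ⟨r, a⟩
  · exact gainf gr h hσ e a p1
  · exact gainf (σ := σ.comp σ) gr h
      (fun f m => ⟨(hσ _ (hσ f m).1).1, (hσ _ (hσ f m).1).2.trans (hσ f m).2⟩)
      (fun γ => by rw [RingHom.comp_apply, e, e, mul_assoc]) b a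
  · refine ⟨r * swap 1 3, .inl fun m => m.2 (gold ?_)⟩
    have k : ∀ n : ℕ, y (r * (rot ^ n * swap 1 3)) ∈ P.ring ∧
        P.rd (y (r * (rot ^ n * swap 1 3))) = P.rd (y (r * swap 1 3)) := fun n => by
      induction n with
      | zero => simpa using m.1
      | succ n i =>
        have := hσ _ i.1
        rw [e, ← mul_assoc, a, mul_assoc, ← mul_assoc rot, ← pow_succ'] at this
        exact ⟨this.1, this.2.trans i.2⟩
    have b := k 1
    have c := k 4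
    rw [show rot ^ 1 * swap 1 3 = swap 0 4 * (swap 0 1 * swap 2 3) by decide, ← mul_assoc,
      h.sym] at b
    rw [show rot ^ 4 * swap 1 3 = swap 3 4 * (swap 0 3 * swap 1 2) by decide, ← mul_assoc,
      kl h _ _ (by simp [V4])] at c
    have d := congrArg P.rd (h.add r)
    rw [h.mul r, rd_add m.1 (mul_mem c.1 b.1), rd_mul c.1 b.1, b.2, c.2, rd_one] at d
    exact d

end Q4

open Q4 in
/-- **R5** -/
theorem r5' (c3 : C3) (ds : DSC) (ab : ABH) (gr : GRS) : R5 := by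
  obtain ⟨c, hc, c3⟩ := c3
  obtain ⟨c', hc', ds⟩ := ds c hc 120
  refine ⟨c', hc', fun K₀ K _ _ _ _ _ _ h0 hK T O ⟨y, π, h, h5⟩ => ?_⟩
  refine ds K₀ K h0 hK T O S5 (fun ρ P => ¬ Med T.J P (y ρ) ∨ E1 T.J P ∧ Irr T.J⟮y ρ⟯ P)
    (by simp [Fintype.card_perm, Nat.factorial])
    (fun P σ a b e _ => ?_) fun G X X' X₀ a b d e f g ρ => ?_
  · exact (gain5 (J := T.J) gr h.cr (σ := σ) b (h.eqv σ)
      fun z => a (h.inj (z.trans (map_one π).symm))).imp fun _ k => k.imp_right fun k => ⟨e, k⟩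
  · have k := ab.dat h0 hK T a b d e f
    exact c3 T.J T.F _ X' _ _ X₀ (k.inp (h5 ρ).1 (gen h.cr h.gen ρ)) g (k.mk' (h5 ρ).2)
      (inv' h.cr ρ ▸ k.mk' (h5 _).2) (add' h.cr ρ ▸ k.mk' (h5 _).2)

theorem r5 (c3 : C3) (ds : DSC) (ab : ABH) (gr : GRS) : R5 := r5' c3 ds ab gr

end Vale.Agent.P287D.Hd
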