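import Vale.Agent.P287D.Hd.Cm

/-!
# P287D, hidden covers: the sextic del Pezzo surface
-/

set_option linter.unusedSectionVars false

open Set Equiv
open scoped IntermediateField

noncomputable section

namespace Vale.Agent.P287D.Hd

section res

variable {E : Type} [Field E] {k : Subfield E}

/-- proportional over `k` -/
def Pp (k : Subfield E) (a b : E) : Prop := ∃ c ∈ k, c ≠ 0 ∧ a = c * b

theorem Pp.symm {a b : E} (h : Pp k a b) : Pp k b a :=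
  let ⟨c, h1, h2, h3⟩ := h
  ⟨c⁻¹, inv_mem h1, inv_ne_zero h2, by rw [h3, inv_mul_cancel_left₀ h2]⟩

theorem Pp.trans {a b c : E} (h : Pp k a b) (h' : Pp k b c) : Pp k a c :=
  let ⟨x, h1, h2, h3⟩ := h
  let ⟨y, k1, k2, k3⟩ := h'
  ⟨x * y, mul_mem h1 k1, mul_ne_zero h2 k2, by rw [h3, k3, mul_assoc]⟩

theorem Pp.mul {a b c d : E} (h : Pp k a b) (h' : Pp k c d) : Pp k (a * c) (b * d) :=
  let ⟨x, h1, h2, h3⟩ := h
  let ⟨y, k1, k2, k3⟩ := h'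
  ⟨x * y, mul_mem h1 k1, mul_ne_zero h2 k2, by rw [h3, k3]; ring⟩

theorem Pp.refl (a : E) : Pp k a a := ⟨1, one_mem _, one_ne_zero, (one_mul a).symm⟩

theorem Pp.inv {a b : E} (h : Pp k a b) : Pp k a⁻¹ b⁻¹ :=
  let ⟨c, h1, h2, h3⟩ := h
  ⟨c⁻¹, inv_mem h1, inv_ne_zero h2, by rw [h3, mul_inv]⟩

theorem Pp.alg {a : E} {m : ℕ} (hm : 0 < m) (h : Pp k (a ^ m) 1) : IsAlgebraic k a :=
  let ⟨_, h1, _, h3⟩ := h
  alg_of_pow hm (by rwa [h3, mul_one])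

theorem perm3 : ∀ ρ : Perm (Fin 3), ρ = 1 ∨ (∀ i, ρ (ρ (ρ i)) = i ∧
    ({i, ρ i, ρ (ρ i)} : Finset (Fin 3)) = Finset.univ ∧ ρ i ≠ i ∧ ρ (ρ i) ≠ i ∧ ρ (ρ i) ≠ ρ i) ∨
    ∃ i l, ρ l = l ∧ ({i, ρ i, l} : Finset (Fin 3)) = Finset.univ ∧ ρ i ≠ i ∧ l ≠ i ∧
      l ≠ ρ i := by decide

theorem prod3 (u : Fin 3 → E) {i j l : Fin 3} (h : ({i, j, l} : Finset (Fin 3)) = Finset.univ)
    (a : j ≠ i) (b : l ≠ i) (c : l ≠ j) : u i * u j * u l = u 0 * u 1 * u 2 := by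
  rw [← Fin.prod_univ_three, ← h, Finset.prod_insert (by simp [a.symm, b.symm]),
    Finset.prod_pair c.symm, mul_assoc]

/-- the residues of the characters of the torus -/
theorem torus {u : Fin 3 → E} (ht : ∀ i, Transcendental k (u i)) (hp : Pp k (u 0 * u 1 * u 2) 1)
    {ρ : Perm (Fin 3)} {s : ℤ} (hs : s = 1 ∨ s = -1) (hn : ρ ≠ 1 ∨ s = -1)
    (h : ∀ i, Pp k (u i) (u (ρ i) ^ s)) : ∃ i l, Pp k (u i ^ 2 * u l) 1 := by
  have u0 : ∀ i, u i ≠ 0 := fun i e => ht i (e ▸ isAlgebraic_zero)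
  have sq : ∀ i, ¬ Pp k (u i) (u i)⁻¹ := fun i e => ht i (Pp.alg two_pos (by
    simpa [sq, u0 i] using e.mul (Pp.refl (u i))))
  rcases hs with rfl | rfl
  · simp only [zpow_one] at h
    rcases perm3 ρ with e | e | ⟨i, l, -, a, b, c, d⟩
    · exact absurd e (hn.resolve_right (by decide))
    · obtain ⟨-, a, b, c, d⟩ := e 0
      refine (ht 0 (Pp.alg three_pos (Pp.trans ?_ (prod3 u a b c d ▸ hp)))).elim
      rw [pow_three']
      exact ((Pp.refl _).mul (h 0)).mul ((h 0).trans (h _))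
    · refine ⟨i, l, Pp.trans ?_ (prod3 u a b c d ▸ hp)⟩
      rw [pow_two]
      exact ((Pp.refl _).mul (h i)).mul (Pp.refl _)
  · simp only [zpow_neg, zpow_one] at h
    rcases perm3 ρ with rfl | e | ⟨i, l, a, -⟩
    · exact (sq 0 (h 0)).elim
    · have a := (h (ρ 0)).inv
      have b := h (ρ (ρ 0))
      rw [(e 0).1] at b
      rw [inv_inv] at a
      exact (sq 0 ((h 0).trans (a.trans b))).elim
    · exact (sq l (by simpa only [a] using h l)).elim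

end res

section gain

variable {J F : Type} [Field J] [Algebra ℂ J] [Field F] [Algebra ℂ F] [Algebra J F]
  [IsScalarTower ℂ J F]

theorem gain6 (hg : GRS) {P : Pl F} {z : Fin 3 → F} (hz : z 0 * z 1 * z 2 = 1) {σ : F →+* F}
    (hσ : ∀ f ∈ P.ring, σ f ∈ P.ring ∧ P.rd (σ f) = P.rd f)
    (hc : ∀ c : J, ∃ c' : J, σ (algebraMap J F c) = algebraMap J F c')
    {ρ : Perm (Fin 3)} {s : ℤ} (hs : s = 1 ∨ s = -1) (hn : ρ ≠ 1 ∨ s = -1)
    (h : ∀ i, ∃ c : J, σ (z i) = algebraMap J F c * z (ρ i) ^ s) :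
    ∃ i, (¬ ∃ c : J, Med J P (algebraMap J F c * z i)) ∨ Irr J⟮z i⟯ P := by
  by_contra! H
  choose c hm using fun i => (H i).1
  set w : Fin 3 → F := fun i => algebraMap J F (c i) * z i with hw
  have un : ∀ i, Un P (w i) := fun i => (hm i).un
  have c0 : ∀ i, c i ≠ 0 := fun i e => (un i).1 (by simp [hw, e])
  have one : Un P 1 := ⟨one_ne_zero, by simp⟩
  have hp : Pp (Rs J P) (P.rd (w 0) * P.rd (w 1) * P.rd (w 2)) 1 := by
    rw [← rd_mul (un 0).mem (un 1).mem, ← rd_mul ((un 0).mul (un 1)).mem (un 2).mem, ← rd_one]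
    refine (((un 0).mul (un 1)).mul (un 2)).rel one (c := c 0 * c 1 * c 2) ?_
    rw [← hz]
    simp only [hw, map_mul]
    ring
  have hr : ∀ i, Pp (Rs J P) (P.rd (w i)) (P.rd (w (ρ i)) ^ s) := fun i => by
    obtain ⟨a, b⟩ := hσ _ (un i).mem
    obtain ⟨d, hd⟩ := h i
    obtain ⟨e, he⟩ := hc (c i)
    have k : Un P (w (ρ i) ^ s) ∧ P.rd (w (ρ i) ^ s) = P.rd (w (ρ i)) ^ s := by
      rcases hs with rfl | rfl
      · simpa using un _
      · simpa using ⟨(un _).inv, (un _).rd_inv⟩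
    rw [← b, ← k.2]
    refine (Un.of_rd a (b ▸ (un i).rd_ne)).rel k.1 (c := e * d / c (ρ i) ^ s) ?_
    have := zpow_ne_zero s ((map_ne_zero (algebraMap J F)).2 (c0 (ρ i)))
    simp only [hw, map_mul, he, hd, map_div₀, map_zpow₀, mul_zpow]
    field_simp
  obtain ⟨i, l, a, a1, a2, a3⟩ := torus (fun i => (hm i).2) hp hs hn hr
  rw [mul_one] at a3
  have e := hg J F P _ (hm l)
  rw [adjoin_mul (c0 l)] at e
  refine (H l).2 ⟨P.rd (w i), alg_of_pow two_pos ?_, e ▸ nonsq (hm l).2 a1 a2 a3⟩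
  rw [e, eq_div_of_mul_eq (un l).rd_ne a3]
  exact div_mem (Subfield.subset_closure (.inr a1)) (Subfield.subset_closure (.inl rfl))

theorem gen6 {z : Fin 3 → F} (hz : z 0 * z 1 * z 2 = 1)
    (h : IntermediateField.adjoin J (range z) = ⊤) (i : Fin 3) : J⟮z i, z (i + 1)⟯ = ⊤ := by
  refine eq_top_iff.2 (h.ge.trans
    (IntermediateField.adjoin_le_iff.2 (range_subset_iff.2 fun j => ?_)))
  have k : ∀ i : Fin 3, ({i, i + 1, i + 2} : Finset (Fin 3)) = Finset.univ ∧ i + 1 ≠ i ∧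
      i + 2 ≠ i ∧ i + 2 ≠ i + 1 ∧ ∀ j, j = i ∨ j = i + 1 ∨ j = i + 2 := by decide
  obtain ⟨k1, k2, k3, k4, k5⟩ := k i
  have a : z i ∈ J⟮z i, z (i + 1)⟯ := IntermediateField.subset_adjoin _ _ (.inl rfl)
  have b : z (i + 1) ∈ J⟮z i, z (i + 1)⟯ := IntermediateField.subset_adjoin _ _ (.inr rfl)
  have c : z (i + 2) ∈ J⟮z i, z (i + 1)⟯ := by
    rw [eq_inv_of_mul_eq_one_right ((prod3 z k1 k2 k3 k4).trans hz)]
    exact inv_mem (mul_mem a b)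
  rcases k5 j with rfl | rfl | rfl
  exacts [a, b, c]

end gain

/-- **R6** -/
theorem r6 (c2 : C2) (ds : DSC) (ab : ABH) (gr : GRS) : R6 := by
  obtain ⟨c, hc, c2⟩ := c2
  obtain ⟨c', hc', ds⟩ := ds c hc 3
  refine ⟨c', hc', fun K₀ K _ _ _ _ _ _ h0 hK T O ⟨z, h1, h2, h3, h4⟩ => ?_⟩
  refine ds K₀ K h0 hK T O (Fin 3) (fun i P => E1 T.J P ∧
    ((¬ ∃ c : T.J, Med T.J P (algebraMap T.J T.F c * z i)) ∨ Irr T.J⟮z i⟯ P)) (by simp)
    (fun P σ a b e _ => ?_) fun G X X' X₀ a b d e f g i => ?_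
  · obtain ⟨ρ, s, k1, k2, k3⟩ := h3 σ a
    exact (gain6 gr h1 (σ := σ) b (T.conj σ) k1 k2 k3).imp fun _ k => ⟨e, k⟩
  · have k := ab.dat h0 hK T a b d e f
    exact c2 T.J T.F _ X' _ _ X₀ (k.inp (h4 i).1 (gen6 h1 h2 i)) g (k.mk' (h4 i).2.1)
      (k.mk' (h4 i).2.2)

end Vale.Agent.P287D.Hd
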