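import Vale.Agent.P287D.Hd.Cm
import Vale.Agent.P287D.Va.Cone

/-!
# P287D, hidden covers: the rows `HD2`, `HD3`, `CHG`
-/

set_option linter.unusedVariables false

open Set

noncomputable section

namespace Vale.Agent.P287D.Hd

section alg

variable {L M N : Type} [Field L] [Algebra ℂ L] [Field M] [Algebra ℂ M] [Field N] [Algebra ℂ N]

theorem ei_comp [Algebra L M] [Algebra M N] [Algebra L N] [IsScalarTower L M N] {R : Pl N}
    {P : Pl M} {Q : Pl L} (h : Ov M R P) (h' : Ov L P Q) :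
    Ov L R Q ∧ ei R Q = ei R P * ei P Q := by
  refine ⟨?_, ?_⟩
  · have := h.comp h'
    rwa [← IsScalarTower.algebraMap_eq] at this
  · rw [ei, IsScalarTower.algebraMap_apply L M N, h.ord]
    rfl

theorem br_mono (pb : PB) [Algebra L M] [Algebra M N] [Algebra L N] [IsScalarTower L M N]
    [IsScalarTower ℂ M N] {n : ℕ} (hM : FF M n) (hN : FF N n) : Br L M ≤ Br L N := by
  intro Q
  by_cases h : ∃ P : Pl M, Ov L P Q ∧ 1 < ei P Q
  · obtain ⟨P, hP, e⟩ := h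
    obtain ⟨R, hR⟩ := pb.up n n M N (algebraMap M N) hM hN
      (fun c => (IsScalarTower.algebraMap_apply ℂ M N c).symm) P
    have k := ei_comp hR hP
    have p : 0 < ei R P := hR.e_pos
    have : ∃ R : Pl N, Ov L R Q ∧ 1 < ei R Q := ⟨R, k.1, by rw [k.2]; nlinarith⟩
    simp only [Br, if_pos this]
    split_ifs <;> norm_num
  · simp only [Br, if_neg h]
    split_ifs <;> norm_num

theorem dim_le {K₀ K₁ : IntermediateField ℂ N} {a b : ℕ} (h : K₀ ≤ K₁) (h0 : FF K₀ a)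
    (h1 : FF K₁ b) : a ≤ b := by
  have := trdeg_le_of_injective (IntermediateField.inclusion h)
    (IntermediateField.inclusion_injective h)
  rw [h0.trdeg, h1.trdeg] at this
  exact_mod_cast this

theorem eq_of_cld {K₀ K₁ : IntermediateField ℂ N} {a : ℕ} (h : K₀ ≤ K₁) (h0 : FF K₀ a)
    (h1 : FF K₁ a) (c : Cld K₀) : K₀ = K₁ := by
  refine le_antisymm h fun f hf => c f ?_
  let _ : Algebra K₀ K₁ := (IntermediateField.inclusion h).toRingHom.toAlgebra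
  have : IsScalarTower ℂ K₀ K₁ := .of_algebraMap_eq fun _ => rfl
  have : IsScalarTower K₀ K₁ N := .of_algebraMap_eq fun _ => rfl
  have e := trdeg_add_eq ℂ K₀ (A := K₁)
  rw [h0.trdeg, h1.trdeg] at e
  have z : Algebra.trdeg K₀ K₁ = 0 :=
    (Cardinal.add_right_inj_of_lt_aleph0 (γ := a) Cardinal.natCast_lt_aleph0).1
      (by rw [add_comm, e, zero_add])
  exact ((trdeg_eq_zero_iff.1 z).isAlgebraic ⟨f, hf⟩).algebraMap

end alg

/-- a field model of type S over a surface which is not visible from the base of the link -/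
theorem hid (pb : PB) (r5 : R5) (r4 : R4) (r6 : R6) (ex : EXN) (en : END) : ∃ d₀ : ℕ, ∀ d, d₀ ≤ d →
    ∀ S, SCl d S → ∀ (K : Type) [Field K] [Algebra ℂ K], FF K 4 → ∀ R A Λ B Γ E,
    Link 3 R A Λ B Γ E → dim R ≤ 3 → ∀ i (K₀ : IntermediateField ℂ K), FF K₀ 2 → ¬ K₀ ≤ fld R →
    ∀ T : Tow K₀ K, T.Typ S → ¬ (T.M5 (Oh (Λ i) (B i)) ∨ T.M4 (Oh (Λ i) (B i)) ∨
      T.M6 (Oh (Λ i) (B i))) := by
  obtain ⟨c5, p5, r5⟩ := r5
  obtain ⟨c4, p4, r4⟩ := r4
  obtain ⟨c6, p6, r6⟩ := r6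
  obtain ⟨d5, e5⟩ := en c5 p5
  obtain ⟨d4, e4⟩ := en c4 p4
  obtain ⟨d6, e6⟩ := en c6 p6
  refine ⟨max d5 (max d4 d6), fun d hd S hS K _ _ hK R A Λ B Γ E l r i K₀ h0 n T ⟨M, hM⟩ m => ?_⟩
  obtain ⟨H, f, s⟩ := hS.isS M hM
  have rk : Module.finrank K₀ M ≤ 120 :=
    (Submodule.finrank_le M.toSubalgebra.toSubmodule).trans T.rkJ
  have : IsScalarTower ℂ M T.J := .of_algebraMap_eq fun _ => rfl
  have key : ∀ c : ℝ, 0 < c → T.Res (Oh (Λ i) (B i)) c → ¬ Psef (cn K₀ 2 + c • Br K₀ M) :=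
    fun c p t q => ex K hK R A Λ B Γ E l r i K₀ h0 n T c t (q.mono (add_le_add_right
      (smul_le_smul_of_nonneg_left (br_mono pb s.ff (ff_up (L := K₀) h0)) p.le) _))
  rcases m with m | m | m
  · exact key c5 p5 (r5 K₀ K h0 hK T _ m) (e5 d (by omega) K₀ M h0 rk H f s)
  · exact key c4 p4 (r4 K₀ K h0 hK T _ m) (e4 d (by omega) K₀ M h0 rk H f s)
  · exact key c6 p6 (r6 K₀ K h0 hK T _ m) (e6 d (by omega) K₀ M h0 rk H f s)

variable (pb : PB) (fl : FLD) (fa : FMA) (fb : FMB) (r5 : R5) (r4 : R4) (r6 : R6) (ex : EXN)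
  (en : END)

include pb fl r5 r4 r6 ex en

include fa in
theorem hd2_of : HD2 := by
  obtain ⟨d₀, h⟩ := hid pb r5 r4 r6 ex en
  refine ⟨d₀, fun d hd S hS K _ _ hK _ R A Λ B Γ E l r i b p => ?_⟩
  obtain ⟨T, t, m⟩ := fa S d hS K hK _ _ _ (l.mfs i) b p
  have h0 : FF (fld (B i)) 2 := b ▸ fl.ff 4 K hK (B i)
  refine h d hd S hS K hK R A Λ B Γ E l (by omega) i _ h0 (fun q => ?_) T t (m.imp_right .inr)
  have := dim_le q h0 (fl.ff 4 K hK R)
  omega

include fb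

theorem hd3_of : HD3 := by
  obtain ⟨d₀, h⟩ := hid pb r5 r4 r6 ex en
  refine ⟨d₀, fun d hd S hS K _ _ hK _ R A Λ B Γ E l r i b L p => ?_⟩
  obtain ⟨T, t, m⟩ := fb S d hS K hK _ _ _ (l.mfs i) b L p
  refine h d hd S hS K hK R A Λ B Γ E l (by omega) i _ p.2.2.1 (fun q => ?_) T t (.inr (.inl m))
  have := dim_le q p.2.2.1 (fl.ff 4 K hK R)
  omega

theorem chg_of : CHG := by
  obtain ⟨d₀, h⟩ := hid pb r5 r4 r6 ex en
  refine ⟨d₀, fun d hd S hS K _ _ hK _ R A Λ B Γ E l r i b L p => ?_⟩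
  obtain ⟨T, t, m⟩ := fb S d hS K hK _ _ _ (l.mfs i) b L p
  by_contra n
  exact h d hd S hS K hK R A Λ B Γ E l (by omega) i _ p.2.2.1
    (fun q => n (eq_of_cld q p.2.2.1 (r ▸ fl.ff 4 K hK R) p.2.1)) T t (.inr (.inl m))

end Vale.Agent.P287D.Hd
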